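import Vale.Agent.P218M2.Spec
import Vale.Agent.P218R.Grc
import Vale.Agent.P218R.Grn
import Vale.Agent.P218R.Div

/-!
# P218M2: a closed surface has bounded area ratios (row ARC)
-/

open MeasureTheory Metric Filter Topology Set
open scoped ContDiff ENNReal RealInnerProductSpace
open Vale.Agent.P366W Vale.Agent.P218R

noncomputable section

namespace Vale.Agent.P218M2

/-- the area of the part of a graph with slope at most one in a ball -/
theorem arc_cyl {S : Srf} (hS : S.Ok) {p e : E3} {L : Vale.Agent.P366.Stmt.E 2 →ₗᵢ[ℝ] E3} {ρ : ℝ}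
    {v : Vale.Agent.P366.Stmt.E 2 → ℝ} (f : Fr e L) (g : S.Gr p e L ρ ρ v) (hv : ContDiff ℝ ∞ v)
    (h1 : ∀ y, ‖y‖ < ρ → ‖gradient v y‖ ≤ 1) (x : E3) {r : ℝ} (hr : 0 < r) :
    S.μ (closedBall x r ∩ cyl p e L ρ ρ) ≤ ENNReal.ofReal (2 * Real.pi * r ^ 2) := by
  have mc := (isOpen_cyl' (p := p) (r := ρ) (h := ρ) f).measurableSet
  have mb : MeasurableSet (closedBall x r) := measurableSet_closedBall
  have k := (area S p e L ρ ρ v f g (hv.of_le (by simp)).contDiffOn).1
    ((closedBall x r).indicator 1) (measurable_const.indicator mb)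
  rw [lintegral_indicator_one mb, Measure.restrict_apply mb] at k
  rw [Srf.μ, Measure.restrict_apply (mb.inter mc), inter_assoc, k]
  have mb' : MeasurableSet (closedBall (adj L (x - p)) r) := measurableSet_closedBall
  calc _ ≤ ∫⁻ y in ball (0 : Vale.Agent.P366.Stmt.E 2) ρ,
        (closedBall (adj L (x - p)) r).indicator (fun _ => ENNReal.ofReal 2) y := by
        refine setLIntegral_mono' measurableSet_ball fun y hy => ?_
        by_cases hx : gX p e L v y ∈ closedBall x r
        · have hy' : y ∈ closedBall (adj L (x - p)) r := by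
            rw [mem_closedBall_iff_norm] at hx ⊢
            refine le_trans (le_of_eq ?_) ((f.norm_adj _).trans hx)
            rw [gX, show p + L y + v y • e - x = (L y + v y • e) - (x - p) by abel,
              map_sub (adj L) (L y + v y • e), f.adj_pt]
          rw [indicator_of_mem hx, indicator_of_mem hy', Pi.one_apply, one_mul]
          refine ENNReal.ofReal_le_ofReal (Real.sqrt_le_iff.2 ⟨by norm_num, ?_⟩)
          have := pow_le_pow_left₀ (norm_nonneg _) (h1 y (mem_ball_zero_iff.1 hy)) 2
          linarith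
        · rw [indicator_of_notMem hx, zero_mul]
          exact zero_le
    _ ≤ ∫⁻ y, (closedBall (adj L (x - p)) r).indicator (fun _ => ENNReal.ofReal 2) y :=
        setLIntegral_le_lintegral _ _
    _ = _ := by
        rw [lintegral_indicator_const mb', EuclideanSpace.volume_closedBall_fin_two,
          ← ENNReal.ofReal_pow hr.le, ← ENNReal.ofReal_mul (by positivity),
          ← ENNReal.ofReal_mul (by positivity)]
        congr 1
        ring

theorem arc : ARC := fun S hS hc => by
  obtain ⟨Λ, -, h⟩ := IsCompact.induction_on hc (p := fun s => ∃ Λ : ℝ, 0 ≤ Λ ∧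
      ∀ x r, 0 < r → S.μ (closedBall x r ∩ s) ≤ ENNReal.ofReal (Λ * r ^ 2))
    ⟨0, le_rfl, fun x r _ => by simp⟩
    (fun s t hst ⟨Λ, a, b⟩ => ⟨Λ, a, fun x r hr =>
      (measure_mono (inter_subset_inter_right _ hst)).trans (b x r hr)⟩)
    (fun s t ⟨Λ, a, b⟩ ⟨Λ', a', b'⟩ => ⟨Λ + Λ', add_nonneg a a', fun x r hr => by
      rw [inter_union_distrib_left, add_mul, ENNReal.ofReal_add (by positivity) (by positivity)]
      exact (measure_union_le _ _).trans (add_le_add (b x r hr) (b' x r hr))⟩)
    fun p hp => by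
      obtain ⟨L, f, v, hv, -, -, ρ, hρ, h1, h2⟩ := grf S p 1 hS hp one_pos
      exact ⟨_, mem_nhdsWithin_of_mem_nhds (cyl_mem_nhds f hρ hρ), 2 * Real.pi, by positivity,
        fun x r hr => arc_cyl hS f (h2 ρ ρ hρ le_rfl le_rfl) hv h1 x hr⟩
  refine ⟨Λ, fun x r hr => le_trans (le_of_eq ?_) (h x r hr)⟩
  rw [Srf.μ, Measure.restrict_apply' hS.isClosed.measurableSet,
    Measure.restrict_apply' hS.isClosed.measurableSet, inter_assoc, inter_self]

end Vale.Agent.P218M2
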