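import Vale.Agent.P218M2.Spec
import Vale.Agent.P218M1.Calc0
import Vale.Agent.P218M1.PsitA

/-!
# P218M2, row BAD: the time derivative at a regular time at which cylinders are active
-/

open MeasureTheory Metric Filter Topology Set
open scoped ContDiff RealInnerProductSpace ENNReal
open Vale.Agent.P218M1

noncomputable section

namespace Vale.Agent.P218M2

namespace Bad

/-- the clamp to the unit interval -/
def cl (s : ℝ) : ℝ := max 0 (min 1 s)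

theorem cl_cont : Continuous cl := by unfold cl; fun_prop
theorem cl0 (s : ℝ) : 0 ≤ cl s := le_max_left _ _
theorem cl1 (s : ℝ) : cl s ≤ 1 := max_le zero_le_one (min_le_left _ _)
theorem cl_one {s : ℝ} (h : 1 ≤ s) : cl s = 1 := by simp [cl, h]
theorem cl_ne {s : ℝ} (h : cl s ≠ 0) : 0 < s := by
  by_contra h1
  exact h (max_eq_left ((min_le_right _ _).trans (not_lt.1 h1)))

/-- the cutoff -/
def ch (C : Cv) (ρ τ₀ : ℝ) (x : E) : ℝ :=
  cl (ρ - ‖x‖) * ∏ i, if |τ₀ - C.t i| ≤ C.r i ^ 2 then cl (‖x - C.c i‖ / C.r i - 1) else 1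

variable {C : Cv} {ρ τ₀ τ K : ℝ} {ζ : ℝ × Q → ℝ} {o : Fin C.n → Q → ℝ}

theorem ch_cont : Continuous (ch C ρ τ₀) := by
  refine (cl_cont.comp (by fun_prop)).mul (continuous_finsetProd _ fun i _ => ?_)
  split_ifs
  · exact cl_cont.comp (by fun_prop)
  · exact continuous_const

theorem fac0 (x : E) (i : Fin C.n) :
    0 ≤ if |τ₀ - C.t i| ≤ C.r i ^ 2 then cl (‖x - C.c i‖ / C.r i - 1) else 1 := by
  split_ifs
  · exact cl0 _
  · exact zero_le_one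

theorem ch0 (x : E) : 0 ≤ ch C ρ τ₀ x :=
  mul_nonneg (cl0 _) (Finset.prod_nonneg fun i _ => fac0 x i)

theorem ch1 (x : E) : ch C ρ τ₀ x ≤ 1 := by
  refine mul_le_one₀ (cl1 _) (Finset.prod_nonneg fun i _ => fac0 x i)
    (Finset.prod_le_one (fun i _ => fac0 x i) fun i _ => ?_)
  split_ifs
  · exact cl1 _
  · exact le_rfl

theorem ch_ne (hr : ∀ i, 0 < C.r i) {x : E} (h : ch C ρ τ₀ x ≠ 0) : x ∈ C.U ρ τ₀ := by
  refine ⟨by linarith [cl_ne (left_ne_zero_of_mul h)], fun i hi => ?_⟩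
  have h1 := Finset.prod_ne_zero_iff.1 (right_ne_zero_of_mul h) i (Finset.mem_univ i)
  rw [if_pos hi] at h1
  have h2 := cl_ne h1
  rw [sub_pos, lt_div_iff₀ (hr i), one_mul] at h2
  exact h2

theorem U_open : IsOpen (C.U ρ τ₀) := by
  have : C.U ρ τ₀ = {x | ‖x‖ < ρ} ∩
      ⋂ i, {x | |τ₀ - C.t i| ≤ C.r i ^ 2 → C.r i < ‖x - C.c i‖} := by
    ext x; simp [Cv.U]
  rw [this]
  refine (isOpen_lt continuous_norm continuous_const).inter (isOpen_iInter_of_finite fun i => ?_)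
  by_cases h : |τ₀ - C.t i| ≤ C.r i ^ 2
  · simp only [h, forall_true_left]
    exact isOpen_lt continuous_const (by fun_prop)
  · simp [h]

theorem ch_seg {R : ℝ} (hZ : Zt K C ζ o) (hr : ∀ i, 0 < C.r i) (hρ : 3 * R + 3 ≤ ρ)
    (ht : ∀ i, |τ - τ₀| ≤ C.r i ^ 2) {z : Q} (h1 : ‖z.2.1‖ = 1) (h2 : ‖z.1‖ ≤ 3 * R)
    (h3 : z.2.2 ≤ 2) (h4 : ζ (τ, z) ≠ 0) : Seg z {x | 1 ≤ ch C ρ τ₀ x} := by
  intro l hl
  have a1 : ‖z.1 + l • z.2.1‖ ≤ 3 * R + 2 := by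
    refine (norm_add_le _ _).trans ?_
    rw [norm_smul, h1, Real.norm_eq_abs, abs_of_nonneg hl.1]
    linarith [hl.2]
  change 1 ≤ ch C ρ τ₀ _
  rw [ch, cl_one (by linarith), one_mul]
  refine (Finset.prod_eq_one fun i _ => ?_).ge
  split_ifs with hi
  · have a2 : |τ - C.t i| ≤ 2 * C.r i ^ 2 := by
      linarith [abs_sub_le τ τ₀ (C.t i), ht i]
    have a3 := hZ.kill τ z h1 h4 i a2 l hl
    refine cl_one ?_
    rw [le_sub_iff_add_le, le_div_iff₀ (hr i)]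
    linarith
  · rfl

theorem om0 (hZ : Zt K C ζ o) (σ : ℝ) (z : Q) : 0 ≤ C.om o σ z := by
  refine Finset.sum_nonneg fun i _ => ?_
  split_ifs
  · exact div_nonneg (hZ.o0 i z) (sq_nonneg _)
  · exact le_rfl

theorem om_cont (hZ : Zt K C ζ o) (σ : ℝ) : Continuous (C.om o σ) := by
  refine continuous_finsetSum _ fun i _ => ?_
  split_ifs
  · exact (hZ.co i).div_const _
  · exact continuous_const

theorem act0 (σ : ℝ) : 0 ≤ C.act σ := by
  refine Finset.sum_nonneg fun i _ => ?_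
  split_ifs
  · exact zero_le_one
  · exact le_rfl

theorem trans {S T : Sf} {U B : Set E} (h : Ag S T U) (hU : MeasurableSet U)
    (hB : MeasurableSet B) {f : E → ℝ} (hf : ∀ x, f x ≠ 0 → x ∈ U) :
    ∫ x in B, f x ∂T.μ = ∫ x in B, f x ∂S.μ := by
  have e : f = U.indicator f := by
    ext x
    by_cases hx : x ∈ U
    · rw [indicator_of_mem hx]
    · rw [indicator_of_notMem hx]
      by_contra h0
      exact hx (hf x h0)
  rw [e, setIntegral_indicator hU, setIntegral_indicator hU, ← Measure.restrict_restrict hB,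
    ← Measure.restrict_restrict hB, h.m]

theorem ib_le (cg : CGP) {S T : Sf} {U : Set E} {π : Par} {χ : E → ℝ} (hS : S.Ok) (hT : T.Ok)
    (h : Ag S T U) (hU : IsOpen U) (h0 : ∀ x, 0 ≤ χ x) (h1 : ∀ x, χ x ≤ 1)
    (hχ : ∀ x, χ x ≠ 0 → x ∈ U) :
    T.IB π (fun x => χ x * (1 + T.A2 x + T.φ x ^ 2)) ≤ S.AA π + S.PP π := by
  have c1 : S.Cg fun x => 1 + S.A2 x := (Sf.Cg.const zero_le_one).add hS.cg_A2
  rw [Sf.AA, Sf.PP, ← Sf.IB_add hS c1 hS.cg_φ, Sf.IB, Sf.IB,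
    trans h hU.measurableSet measurableSet_ball fun x hx => hχ x (left_ne_zero_of_mul hx)]
  refine integral_mono_of_nonneg (Eventually.of_forall fun x => ?_)
    ((c1.add hS.cg_φ).intOn hS isBounded_ball) (ae_restrict_of_ae (hS.sup.mono fun x hx => ?_))
  · have := T.A2_nonneg x
    exact mul_nonneg (h0 x) (by positivity)
  · have a0 := S.A2_nonneg x
    dsimp only
    by_cases hc : χ x = 0
    · rw [hc, zero_mul]; positivity
    obtain ⟨s, hs, hn, hA⟩ := cg.pt S T x hS hT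
      (by filter_upwards [hU.mem_nhds (hχ x hc)] with y hy using h.z y hy) hx
    have s2 : s ^ 2 = 1 := by rcases hs with rfl | rfl <;> norm_num
    have e1 : T.A2 x = S.A2 x := by rw [Sf.A2, hA, hs_smul, s2, one_mul, Sf.A2]
    have e2 : T.φ x = s * S.φ x := by
      rw [Sf.φ, Sf.φ, Sf.H, Sf.H, hA, hn, trc_smul, inner_smul_right]; ring
    rw [e1, e2, mul_pow, s2, one_mul]
    exact mul_le_of_le_one_left (by positivity) (h1 x)

theorem cl_wt {S : Sf} {π : Par} (hS : S.Ok) (hπ : π.Rg) : S.Cl π 0 (wt S π) :=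
  Sf.cl_WtG hS hπ (G := fun t => G0 t + (t * G1 t) ^ 2)
    ((G0_cd (by norm_num)).add ((contDiff_id.mul (G1_cd (by norm_num))).pow 2))
    fun t ht => by simp [G0_zero ht, G1_zero ht]

theorem wt0 (S : Sf) (π : Par) (z : Q) : 0 ≤ wt S π z :=
  mul_nonneg (S.Wt_nonneg π z) (add_nonneg (G0_nonneg _) (sq_nonneg _))

theorem wt_ne {S : Sf} {π : Par} (hπ : π.Rg) {z : Q} (hd : 0 ≤ z.2.2) (h : wt S π z ≠ 0) :
    S.Sq π z ∧ wt S π z ≤ 37 := by
  have t1 : S.tt π z ≤ 1 := by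
    by_contra h1
    have h2 := (not_le.1 h1).le
    exact h (by simp [wt, G0_zero h2, G1_zero h2])
  have t0 : 0 ≤ S.tt π z := Sf.tt_nonneg hπ hd
  refine ⟨(Sf.sq_of_Wt hπ (left_ne_zero_of_mul h) t1).1, ?_⟩
  have a1 := G0_le t0
  have a2 : |S.tt π z * G1 (S.tt π z)| ≤ 6 := by
    rw [abs_mul, abs_of_nonneg t0]
    nlinarith [abs_G1_le t0, abs_nonneg (G1 (S.tt π z))]
  have a3 : (S.tt π z * G1 (S.tt π z)) ^ 2 ≤ 36 := by
    rw [← sq_abs]
    nlinarith [abs_nonneg (S.tt π z * G1 (S.tt π z))]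
  refine (mul_le_of_le_one_left (add_nonneg (G0_nonneg _) (sq_nonneg _)) (S.Wt_le π z)).trans ?_
  linarith

theorem one_cyl {Cc : ℝ} (hc0 : 0 < Cc)
    (hc : ∀ (S : Sf) (π : Par) (Λ r : ℝ) (h : Q → ℝ) (χ : E → ℝ) (c : E),
      Good S π Λ → 0 < r → S.Cl π 0 h → Continuous χ → (∀ x, 0 ≤ χ x) →
      (∀ z, S.Hit z → S.Box π z → 0 < h z → S.Sq π z ∧ h z ≤ 1 ∧ h z ≤ χ z.1 ∧
        ∃ l ∈ Icc 0 z.2.2, ‖z.1 + l • z.2.1 - c‖ ≤ r) →
      S.II h ≤ Cc * (r ^ 2 + ∫ x in ball c (2 * r), χ x ∂S.μ))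
    {S T : Sf} {U : Set E} {π : Par} {Λ Λ' r : ℝ} {χ : E → ℝ} {u : Q → ℝ} {c : E} (hS : S.Ok)
    (hG : Good T π Λ') (hΛ : S.AR Λ) (h : Ag S T U) (hU : IsOpen U) (hr : 0 < r)
    (cχ : Continuous χ) (h0 : ∀ x, 0 ≤ χ x) (h1 : ∀ x, χ x ≤ 1) (hχ : ∀ x, χ x ≠ 0 → x ∈ U)
    (cu : Continuous u) (u0 : ∀ z, 0 ≤ u z) (u1 : ∀ z, u z ≤ 1)
    (uz : ∀ z : Q, ‖z.2.1‖ = 1 → 0 ≤ z.2.2 → u z ≠ 0 →
      ∃ l ∈ Icc 0 z.2.2, ‖z.1 + l • z.2.1 - c‖ ≤ 10 * r) :
    T.Cl π 0 (fun z => wt T π z * (χ z.1 * u z / 37)) ∧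
      T.II (fun z => wt T π z * (χ z.1 * u z / 37)) ≤ 400 * Cc * (1 + Λ) * r ^ 2 := by
  have cl : T.Cl π 0 fun z => wt T π z * (χ z.1 * u z / 37) :=
    (cl_wt hG.ok hG.rg).mul fun z _ =>
      (contDiff_zero.2 (((cχ.comp continuous_fst).mul cu).div_const 37)).contDiffAt
  refine ⟨cl, ?_⟩
  have Λ0 : 0 ≤ Λ := by
    have := hΛ 0 1 one_pos
    linarith [measureReal_nonneg (μ := S.μ) (s := ball 0 1)]
  have H := hc T π Λ' (10 * r) _ χ c hG (by positivity) cl cχ h0 fun z hz _ hp => by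
    have hd := hz.2.2.1.le
    obtain ⟨q1, q2⟩ := wt_ne hG.rg hd (left_ne_zero_of_mul hp.ne')
    have q3 : u z ≠ 0 := fun h => by simp [h] at hp
    have q4 : wt T π z * (χ z.1 * u z / 37) ≤ χ z.1 := by
      have b1 : χ z.1 * u z ≤ χ z.1 := mul_le_of_le_one_right (h0 _) (u1 z)
      have b2 : 0 ≤ χ z.1 * u z := mul_nonneg (h0 _) (u0 z)
      nlinarith
    exact ⟨q1, q4.trans (h1 _), q4, uz z hz.2.1 hd q3⟩
  have e1 : ∫ x in ball c (2 * (10 * r)), χ x ∂T.μ ≤ Λ * (2 * (10 * r)) ^ 2 := by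
    rw [trans h hU.measurableSet measurableSet_ball hχ]
    refine (le_abs_self _).trans (le_trans ?_ (hΛ c _ (by positivity)))
    have := norm_setIntegral_le_of_norm_le_const (μ := S.μ) (s := ball c (2 * (10 * r))) (f := χ)
      (C := 1) (hS.ball_ne_top _ _).lt_top fun x _ => by
        rw [Real.norm_eq_abs, abs_of_nonneg (h0 x)]; exact h1 x
    rwa [one_mul] at this
  refine H.trans ?_
  have e2 : (10 * r) ^ 2 + ∫ x in ball c (2 * (10 * r)), χ x ∂T.μ ≤ 400 * (1 + Λ) * r ^ 2 := by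
    nlinarith [sq_nonneg r]
  calc _ ≤ Cc * (400 * (1 + Λ) * r ^ 2) := mul_le_mul_of_nonneg_left e2 hc0.le
    _ = _ := by ring

theorem fd_slice (hζ : ContDiff ℝ ∞ ζ) (τ : ℝ) (z v : Q) :
    fderiv ℝ (fun z => ζ (τ, z)) z v = fderiv ℝ ζ (τ, z) (0, v) := by
  have h1 := ((hζ.differentiable (by simp)) (τ, z)).hasFDerivAt.comp z
    (hasFDerivAt_prodMk_right τ z)
  exact DFunLike.congr_fun h1.fderiv v

end Bad

open Bad in
/-- **BAD** -/
theorem bad (vl : VL) (hw : HW2) (cn : CNT) (cg : CGP) : BAD := by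
  intro R α ε K
  obtain ⟨Ch, h0, hh⟩ := hw R α ε
  obtain ⟨Cc, c0, hc⟩ := cn
  refine ⟨Ch * (1 + 14800 * |K| * Cc), by positivity, ?_⟩
  intro S T I I' π Λ Λ' ρ τ τ₀ C ζ o hS hT hI hI' hG hR hα hε hΛ hρ hr ht hZ hA
  have oS := hS.ok τ hI
  have oT := hG.ok
  have cχ : Continuous (ch C ρ τ₀) := ch_cont
  have sg : ∀ z, (T τ).Hit z → (T τ).Box π z → ζ (τ, z) ≠ 0 → Seg z {x | 1 ≤ ch C ρ τ₀ x} :=
    fun z hz hb h => ch_seg hZ hr hρ ht hz.2.1 (hR ▸ hb.1) hb.2.2.1 h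
  obtain ⟨v', hv, e⟩ := vl (T τ) π (wd T τ) (ch C ρ τ₀) (fun z => ζ (τ, z))
    (fun z => fderiv ℝ ζ (τ, z) (1, 0)) oT hG.rg (Psit.swd hT hI') cχ (fun x hx h => by
      refine cg.eq S T I I' τ x hS hT hI hI' ?_ hx
      filter_upwards [(hT.op.prod U_open).mem_nhds (show (τ, x) ∈ I' ×ˢ C.U ρ τ₀ from
        ⟨hI', ch_ne hr h⟩)] with p hp using (hA p.1 hp.1).z p.2 hp.2) sg
  rw [e]
  have cb : Continuous fun z : Q => fderiv ℝ ζ (τ, z) (1, 0) :=
    ((hZ.sm.continuous_fderiv (by simp)).comp (by fun_prop)).clm_apply continuous_const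
  have H := hh (T τ) π Λ' v' (ch C ρ τ₀) (fun z => ζ (τ, z)) (fun z => fderiv ℝ ζ (τ, z) (1, 0))
    (fun z => ch C ρ τ₀ z.1 * (|K| * C.om o τ z)) hG hR hα hε hv (hZ.sm.comp (by fun_prop)) cb
    ((cχ.comp continuous_fst).mul (continuous_const.mul (om_cont hZ τ))) cχ
    (fun z => ⟨hZ.z0 _, hZ.z1 _⟩)
    (fun z => mul_nonneg (ch0 _) (mul_nonneg (abs_nonneg _) (om0 hZ τ z))) ch0
    fun z hz hb h => by
      have s := sg z hz hb h
      have s0 : ch C ρ τ₀ z.1 = 1 := by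
        have := s 0 ⟨le_rfl, hz.2.2.1.le⟩
        rw [zero_smul, add_zero] at this
        exact le_antisymm (ch1 _) this
      have k1 : K * C.om o τ z ≤ |K| * C.om o τ z :=
        mul_le_mul_of_nonneg_right (le_abs_self K) (om0 hZ τ z)
      refine ⟨s, ?_, fun e s => ?_⟩
      · rw [s0, one_mul]
        exact (hZ.dt τ z hz.2.1).trans k1
      · rw [s0, one_mul, fd_slice hZ.sm]
        exact (hZ.dx τ z e s hz.2.1).trans (mul_le_mul_of_nonneg_right k1 (by positivity))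
  refine H.trans ?_
  have hAg := hA τ hI'
  have b1 := ib_le cg (π := π) oS oT hAg U_open ch0 ch1 fun x => ch_ne hr
  have b2 := fun i => one_cyl c0 hc oS hG hΛ hAg U_open (hr i) cχ ch0 ch1 (fun x => ch_ne hr)
    (hZ.co i) (hZ.o0 i) (hZ.o1 i) (hZ.oz i)
  have e3 : (fun z => wt (T τ) π z * (ch C ρ τ₀ z.1 * (|K| * C.om o τ z))) = fun z =>
      ∑ i, (if |τ - C.t i| ≤ 3 * C.r i ^ 2 then 37 * |K| / C.r i ^ 2 else 0) *
        (wt (T τ) π z * (ch C ρ τ₀ z.1 * o i z / 37)) := by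
    ext z
    simp only [Cv.om, Finset.mul_sum]
    refine Finset.sum_congr rfl fun i _ => ?_
    split_ifs
    · ring
    · ring
  have b3 : ((T τ).II fun z => wt (T τ) π z * (ch C ρ τ₀ z.1 * (|K| * C.om o τ z))) ≤
      14800 * |K| * Cc * ((1 + Λ) * C.act τ) := by
    rw [e3, Sf.II_sum oT hG.rg fun i _ => (b2 i).1.cmul _, Cv.act, Finset.mul_sum, Finset.mul_sum]
    refine Finset.sum_le_sum fun i _ => ?_
    rw [Sf.II_cmul oT hG.rg (b2 i).1]
    split_ifs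
    · have := hr i
      refine (mul_le_mul_of_nonneg_left (b2 i).2 (by positivity)).trans (le_of_eq ?_)
      field_simp
      ring
    · simp
  have Λ0 : 0 ≤ Λ := by
    have := hΛ 0 1 one_pos
    linarith [measureReal_nonneg (μ := (S τ).μ) (s := ball 0 1)]
  have p1 : 0 ≤ (1 + Λ) * C.act τ := mul_nonneg (by linarith) (act0 τ)
  have p2 : 0 ≤ (S τ).AA π + (S τ).PP π := add_nonneg (Sf.AA_nonneg oS) (Sf.PP_nonneg oS)
  have p3 : 0 ≤ 14800 * |K| * Cc := by positivity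
  rw [mul_assoc Ch]
  refine mul_le_mul_of_nonneg_left ?_ h0.le
  nlinarith [mul_nonneg p3 p2]

end Vale.Agent.P218M2
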