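import Vale.Agent.P218M2.BrA

/-!
# P218M2: the bridge to the class of P218Z
-/

open MeasureTheory Metric Filter Topology Set
open scoped ContDiff RealInnerProductSpace ENNReal
open Vale.Agent.P218R (Srf Flw low' div' fv' rsc rsl_ok sc_grad sc_H H2)
open Vale.Agent.P218M1 Vale.Agent.P218M1.Br Vale.Agent.P218Z

noncomputable section

namespace Vale.Agent.P218M2

namespace Bz

/-- from the rescaled coordinates to the original ones -/
def Ph (x₀ : E) (t₀ : ℝ) (p : ℝ × E) : ℝ × E :=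
  (t₀ - Real.exp (-p.1), x₀ + Real.exp (-p.1 / 2) • p.2)

theorem sPh (x₀ : E) (t₀ : ℝ) : ContDiff ℝ ∞ (Ph x₀ t₀) := by unfold Ph; fun_prop

variable {F W : Flw} {a b Λ G t₀ A B : ℝ} {x₀ : E}

theorem tm_mono (t₀ : ℝ) : Monotone fun σ : ℝ => t₀ - Real.exp (-σ) := fun _ _ h =>
  sub_le_sub_left (Real.exp_le_exp.2 (neg_le_neg h)) _

theorem tm_lt (h : t₀ ≤ b) (σ : ℝ) : t₀ - Real.exp (-σ) < b := by linarith [Real.exp_pos (-σ)]

theorem cyls (h : Zc F a b Λ G) (ha : a < t₀ - Real.exp (-A)) (hb : t₀ ≤ b) {δ : ℝ}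
    (δ0 : 0 < δ) : ∃ C : Cv, (∀ i, 0 < C.r i) ∧ ∑ i, C.r i ^ 2 ≤ δ ∧
      (∀ i, C.t i ∈ Icc A B ∧ Ph x₀ t₀ (C.t i, C.c i) ∈ Sing (trk F)) ∧
      ∀ p : ℝ × E, p.1 ∈ Icc A B → Ph x₀ t₀ p ∈ Sing (trk F) →
        ∃ i, |p.1 - C.t i| ≤ C.r i ^ 2 ∧ ‖p.2 - C.c i‖ < C.r i := by
  obtain ⟨D, D0, hD⟩ := (((h.cpt _ _ ha (tm_lt hb B)).image
    (f := fun p => p.2 - x₀) (by fun_prop)).isBounded).subset_closedBall_lt 0 0
  obtain ⟨L, hL⟩ : ∃ L, L = 2 * Real.exp (B / 2) + 2 * Real.exp B * (Real.exp (B / 2) * D) :=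
    ⟨_, rfl⟩
  have L0 : 0 < L := by rw [hL]; positivity
  obtain ⟨T, t1, t2, t3⟩ := h.cov _ _ ha (tm_lt hb B) (min (δ / L ^ 2) (min 1 (Real.exp (-B))))
    (by positivity)
  have m : ∀ σ ∈ Icc A B, t₀ - Real.exp (-σ) ∈ Icc (t₀ - Real.exp (-A)) (t₀ - Real.exp (-B)) :=
    fun σ hσ => ⟨tm_mono t₀ hσ.1, tm_mono t₀ hσ.2⟩
  obtain ⟨C, c1, c2, c3, c4⟩ := cover T (fun q => L * q.2)
    {p | p.1 ∈ Icc A B ∧ Ph x₀ t₀ p ∈ Sing (trk F)} (fun q p => Ph x₀ t₀ p ∈ pcyl q.1 q.2)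
    (fun q hq => mul_pos L0 (t1 q hq))
    (fun p hp => by simpa only [mem_iUnion, exists_prop] using t2 ⟨hp.2, m _ hp.1, trivial⟩)
    fun q hq p hp p' hp' k k' => by
      have r0 := t1 q hq
      have r1 := (Finset.single_le_sum (f := fun q : (ℝ × E) × ℝ => q.2 ^ 2)
        (fun _ _ => sq_nonneg _) hq).trans (t3.trans (min_le_right _ _))
      have d1 : Real.exp (-p'.1 / 2) * ‖p'.2‖ ≤ D := by
        simpa [Ph, norm_smul] using hD ⟨Ph x₀ t₀ p', ⟨m _ hp'.1, hp'.2.1⟩, rfl⟩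
      rw [hL]
      refine near hp.1.2 hp'.1.2 ?_ r0 (by nlinarith [r1.trans (min_le_left _ _)]) ?_ ?_ ?_
      · have e : Real.exp (p'.1 / 2) * Real.exp (-p'.1 / 2) = 1 := by
          rw [← Real.exp_add, show p'.1 / 2 + -p'.1 / 2 = 0 by ring, Real.exp_zero]
        calc ‖p'.2‖ = Real.exp (p'.1 / 2) * (Real.exp (-p'.1 / 2) * ‖p'.2‖) := by
              rw [← mul_assoc, e, one_mul]
          _ ≤ _ := mul_le_mul (Real.exp_le_exp.2 (by linarith [hp'.1.2])) d1 (by positivity)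
              (Real.exp_pos _).le
      · refine (mul_le_mul_of_nonneg_left (r1.trans (min_le_right _ _)) (Real.exp_pos _).le).trans ?_
        rw [← Real.exp_add, add_neg_cancel, Real.exp_zero]
      · have k1 := k.1
        have k2 := k'.1
        simp only [Ph, mem_Ioo] at k1 k2
        exact abs_le.2 ⟨by linarith [k1.2, k2.1], by linarith [k1.1, k2.2]⟩
      · have := dist_triangle_right (Ph x₀ t₀ p).2 (Ph x₀ t₀ p').2 q.1.2
        have k1 : dist _ _ < _ := k.2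
        have k2 : dist _ _ < _ := k'.2
        rw [dist_eq_norm] at this
        simp only [Ph, add_sub_add_left_eq_sub] at this k1 k2
        linarith
  refine ⟨C, c1, c2.trans ?_, c3, fun p h1 h2 => c4 p ⟨h1, h2⟩⟩
  simp only [mul_pow, ← Finset.mul_sum]
  rw [mul_comm, ← le_div_iff₀ (by positivity)]
  exact t3.trans (min_le_left _ _)

theorem mem_iff (g : ∀ t, (W.sl t).G = (F.sl t).G) (σ : ℝ) (x : E) :
    (W.rsl x₀ t₀ (σ / 2)).w x = 0 ↔ (Ph x₀ t₀ (σ, x)).2 ∈ trk F (Ph x₀ t₀ (σ, x)).1 := by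
  rw [w_eq, trk, ← g]; rfl

theorem zf (top : TOP) (lz : LOCZ) (ac : ARC) (h : Zc F a b Λ G)
    (g : ∀ t, (W.sl t).G = (F.sl t).G) {I : Set ℝ}
    (hI : ∀ σ, σ ∈ I ↔ a < t₀ - Real.exp (-σ) ∧ RegT (trk F) (t₀ - Real.exp (-σ)))
    (hF : Fam (fun σ => toSf (W.rsl x₀ t₀ (σ / 2))) I) (ha : A ∈ I) (hB : B ∈ I) (hb : t₀ ≤ b)
    (ρ : ℝ) : volume (Icc A B \ I) = 0 ∧ ZF (fun σ => toSf (W.rsl x₀ t₀ (σ / 2))) I A B ρ := by
  have a1 := ((hI A).1 ha).1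
  have ad : ∀ σ ∈ Icc A B, a < t₀ - Real.exp (-σ) := fun σ hσ => a1.trans_le (tm_mono t₀ hσ.1)
  have reg : ∀ σ ∈ Icc A B, σ ∉ I → ∃ x, Ph x₀ t₀ (σ, x) ∈ Sing (trk F) := fun σ hσ hn => by
    by_contra! e
    refine hn ((hI σ).2 ⟨ad σ hσ, fun y hy => ?_⟩)
    have e1 : Ph x₀ t₀ (σ, (Real.exp (-σ / 2))⁻¹ • (y - x₀)) = (t₀ - Real.exp (-σ), y) := by
      simp [Ph, smul_smul]
    by_contra e2
    exact e _ (by rw [e1]; exact ⟨hy, e2⟩)
  have null : volume (Icc A B \ I) = 0 := by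
    refine le_antisymm (ENNReal.le_of_forall_pos_le_add fun δ δ0 _ => ?_) zero_le
    obtain ⟨C, c1, c2, -, c4⟩ := cyls (x₀ := x₀) (B := B) h a1 hb (half_pos (NNReal.coe_pos.2 δ0))
    refine (measure_mono (t := ⋃ i, closedBall (C.t i) (C.r i ^ 2)) fun σ hσ => ?_).trans
      ((measure_iUnion_fintype_le _ _).trans ?_)
    · obtain ⟨x, hx⟩ := reg σ hσ.1 hσ.2
      obtain ⟨i, hi, -⟩ := c4 (σ, x) hσ.1 hx
      exact mem_iUnion.2 ⟨i, hi⟩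
    · simp only [Real.volume_closedBall]
      rw [← ENNReal.ofReal_sum_of_nonneg fun i _ => by positivity, ← Finset.mul_sum, zero_add,
        ← ENNReal.ofReal_coe_nnreal]
      exact ENNReal.ofReal_le_ofReal (by linarith)
  refine ⟨null, fun δ δ0 => ?_⟩
  obtain ⟨e, e0, he⟩ := Metric.isOpen_iff.1 hF.op A ha
  obtain ⟨e', e0', he'⟩ := Metric.isOpen_iff.1 hF.op B hB
  obtain ⟨C, c1, c2, c3, c4⟩ := cyls (x₀ := x₀) (B := B) h a1 hb
    (δ := min δ (min e e' / 5)) (by positivity)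
  have nI : ∀ i, C.t i ∉ I := fun i hi => (c3 i).2.2 (((hI _).1 hi).2 _ (c3 i).2.1)
  refine ⟨C, c1, c2.trans (min_le_left _ _), fun i => ?_, fun τ hτ hi => by_contra fun hn => ?_,
    fun τ₀ hτ => ?_⟩
  · have r1 := (Finset.single_le_sum (f := fun i => C.r i ^ 2) (fun _ _ => sq_nonneg _)
      (Finset.mem_univ i)).trans (c2.trans (min_le_right _ _))
    have k1 : e ≤ |C.t i - A| := not_lt.1 fun k => nI i (he k)
    have k2 : e' ≤ |C.t i - B| := not_lt.1 fun k => nI i (he' k)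
    rw [abs_sub_comm] at k1 k2
    constructor <;> linarith [min_le_left e e', min_le_right e e', pow_pos (c1 i) 2]
  · obtain ⟨x, hx⟩ := reg τ hτ hn
    obtain ⟨i, h1, -⟩ := c4 (τ, x) hτ hx
    exact (hi i).not_ge h1
  obtain ⟨κ, κ0, hκ⟩ := Metric.isOpen_iff.1 (isOpen_lt (f := fun _ => a)
    (g := fun σ => t₀ - Real.exp (-σ)) continuous_const (by fun_prop)) τ₀ (ad τ₀ hτ)
  have κ1 : a < t₀ - Real.exp (-(τ₀ - κ / 2)) := hκ (by
    rw [mem_ball, Real.dist_eq, sub_sub_cancel_left, abs_neg, abs_of_pos] <;> linarith)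
  have key := lz (fun σ => (W.rsl x₀ t₀ (σ / 2)).G)
    {x | ‖x‖ ≤ ρ ∧ ∀ i, |τ₀ - C.t i| ≤ C.r i ^ 2 → C.r i ≤ ‖x - C.c i‖} τ₀ (κ / 2)
    ((isCompact_closedBall 0 ρ).of_isClosed_subset ?_ fun x hx => mem_closedBall_zero_iff.2 hx.1)
    (half_pos κ0) ?_ ?_ ?_
  · obtain ⟨s, s0, w, w1, w2, w3, w4⟩ := key
    have ok' : ∀ σ, (Srf.of fun x => w (σ, x)).Ok := fun σ =>
      Srf.of_ok (w1.comp (contDiff_prodMk_right σ)) (w3 σ)
    refine ⟨ball τ₀ s, fun σ => toSf (Srf.of fun x => w (σ, x)), mem_ball_self s0,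
      ⟨isOpen_ball, fun σ _ => ok (ok' σ), w1.contDiffOn⟩, fun σ hσ =>
        ⟨(ac _ (ok' σ) (w2 σ)).elim fun Λ' e => ⟨_, ar e⟩, ?_⟩⟩
    have z : ∀ x ∈ C.U ρ τ₀, x ∈ (W.rsl x₀ t₀ (σ / 2)).G ↔ w (σ, x) = 0 := fun x hx =>
      (w4 σ hσ x ⟨hx.1.le, fun i hi => (hx.2 i hi).le⟩).symm
    have mU : MeasurableSet (C.U ρ τ₀) := by
      refine (measurableSet_lt measurable_norm measurable_const).inter ?_
      change MeasurableSet {x : E | ∀ i, |τ₀ - C.t i| ≤ C.r i ^ 2 → C.r i < ‖x - C.c i‖}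
      measurability
    refine ⟨z, ?_⟩
    simp only [toSf, Srf.μ, Measure.restrict_restrict mU]
    exact congrArg _ (Set.ext fun x => and_congr_right (z x))
  · refine (isClosed_le continuous_norm continuous_const).inter ?_
    change IsClosed {x : E | ∀ i, |τ₀ - C.t i| ≤ C.r i ^ 2 → C.r i ≤ ‖x - C.c i‖}
    simp only [ofPred_forall]
    exact isClosed_iInter fun i => isClosed_iInter fun _ =>
      isClosed_le continuous_const (by fun_prop)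
  · convert (isClosed_Icc.preimage continuous_fst).inter ((h.cpt _ _ κ1
      (tm_lt hb (τ₀ + κ / 2))).isClosed.preimage (sPh x₀ t₀).continuous) using 1
    exact Set.ext fun p => and_congr_right fun hp => (mem_iff g _ _).trans
      (and_iff_right ⟨tm_mono t₀ hp.1, tm_mono t₀ hp.2⟩).symm
  · intro x hx hM
    have hx' := (mem_iff g _ _).1 hM
    obtain ⟨u, u1, u2, u3⟩ : RegPt (trk F) (Ph x₀ t₀ (τ₀, x)).1 (Ph x₀ t₀ (τ₀, x)).2 := by
      by_contra e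
      obtain ⟨i, h1, h2⟩ := c4 (τ₀, x) hτ ⟨hx', e⟩
      exact (hx.2 i h1).not_gt h2
    refine ⟨Function.uncurry u ∘ Ph x₀ t₀, u1.comp (sPh x₀ t₀), ?_,
      (((sPh x₀ t₀).continuous.tendsto (τ₀, x)).eventually u3).mono fun p hp =>
        (mem_iff g _ _).trans hp.1⟩
    have := sc_grad ⟨u (t₀ - Real.exp (-τ₀)), 0⟩ x₀ (Real.exp (-τ₀ / 2))⁻¹ x
    simp only [Srf.sc, inv_inv] at this
    exact this ▸ smul_ne_zero (Real.exp_pos _).ne' u2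
  · have fr : ∃ᶠ τ in 𝓝 τ₀, τ ∈ I := by
      rcases hτ.1.eq_or_lt with rfl | l
      · exact (hF.op.eventually_mem ha).frequently
      have ae : ∀ᵐ τ, τ ∉ Icc A B \ I := measure_eq_zero_iff_ae_notMem.1 null
      exact ((((Measure.dense_of_ae ae).open_subset_closure_inter (isOpen_Ioo (a := A)
        (b := τ₀))) |> closure_mono |>.trans closure_closure.subset) (by
          rw [closure_Ioo l.ne]; exact right_mem_Icc.2 l.le) |> mem_closure_iff_frequently.1).mono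
        fun τ k => by_contra fun e => k.2 ⟨⟨k.1.1.le, k.1.2.le.trans hτ.2⟩, e⟩
    refine fr.mono fun τ k => ⟨?_, _, (hF.ok τ k).sm, fun _ => Iff.rfl, (hF.ok τ k).reg⟩
    have c := (top.2.1 (trk F) a b h.cpt).1 _ ⟨((hI τ).1 k).1, tm_lt hb τ⟩
    convert c.image (f := fun y => (Real.exp (-τ / 2))⁻¹ • (y - x₀)) (by fun_prop) using 1
    refine Set.ext fun x => (mem_iff g _ _).trans ⟨fun e => ⟨_, e, by simp [Ph, smul_smul]⟩, ?_⟩
    rintro ⟨y, e, rfl⟩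
    simpa [Ph, smul_smul] using e

end Bz

open Bz

/-- the statement for the class of P218Z -/
theorem dpz (top : TOP) (ind : IND) (lz : LOCZ) (ac : ARC) (hD : DP2) : DPZ := by
  intro Λ G κ m₀ R₀ hκ hm
  obtain ⟨R', m', D₀, e₀, J, h1, h2, h3, h4, H⟩ := hD |Λ| G κ m₀ (|R₀| + 1) hκ hm (by positivity)
  refine ⟨R', h1, m', h2, D₀ / 2, half_pos h3, e₀, h4, J,
    fun F a b t₀ τ₁ τ₂ e x₀ hF h12 ha hb he0 he1 r1 r2 hd hp hf => ?_⟩
  obtain ⟨W, g, hW⟩ := ex_flow top hF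
  have ad : ∀ τ, τ₁ ≤ τ → t₀ - Real.exp (-2 * τ) ∈ Ioo a b := fun τ hτ =>
    ⟨ha.trans_le (sub_le_sub_left (Real.exp_le_exp.2 (by linarith)) _),
      by linarith [Real.exp_pos (-2 * τ)]⟩
  have e2 : ∀ τ : ℝ, 2 * τ / 2 = τ := fun τ => by ring
  have e3 : ∀ σ : ℝ, -2 * (σ / 2) = -σ := fun σ => by ring
  obtain ⟨I, hI⟩ : ∃ I : Set ℝ, ∀ σ, σ ∈ I ↔ a < t₀ - Real.exp (-σ) ∧
      RegT (trk F) (t₀ - Real.exp (-σ)) := ⟨{σ | _}, fun _ => Iff.rfl⟩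
  have oI : IsOpen I := by
    convert (top.2.1 (trk F) a b hF.cpt).2.2.2.1.preimage (f := fun σ => t₀ - Real.exp (-σ))
      (by fun_prop) using 1
    exact Set.ext fun σ => (hI σ).trans (and_congr_left' (and_iff_left (tm_lt hb σ)).symm)
  have hR : RFlow (fun σ => toSf (W.rsl x₀ t₀ (σ / 2))) I := rflow_loc oI fun σ hσ => by
    obtain ⟨c, d, m, k⟩ := hW _ ⟨((hI σ).1 hσ).1, tm_lt hb σ⟩ ((hI σ).1 hσ).2
    exact ⟨_, m, rflow k.toOk x₀⟩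
  have mI : ∀ τ, τ₁ ≤ τ → (2 * τ ∈ I ↔ RegS F t₀ τ) := fun τ hτ => by
    rw [hI, ← neg_mul]
    exact and_iff_right (ad τ hτ).1
  have gG : ∀ τ, (W.rsl x₀ t₀ τ).G = (F.rsl x₀ t₀ τ).G := fun τ => by
    rw [rsl_eq, rsl_eq]
    exact Set.ext fun x => Set.ext_iff.1 (g _) _
  have gm : ∀ τ, (W.rsl x₀ t₀ τ).μ = (F.rsl x₀ t₀ τ).μ := fun τ => by rw [Srf.μ, gG]; rfl
  have hS : ∀ τ, τ₁ ≤ τ → RegS F t₀ τ → (W.rsl x₀ t₀ τ).Ok ∧ (F.rsl x₀ t₀ τ).Ok ∧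
      P218R.AR Λ (W.rsl x₀ t₀ τ).μ ∧ (W.rsl x₀ t₀ τ).GBd G := fun τ hτ hr => by
    obtain ⟨c, d, m, k⟩ := hW _ (ad τ hτ) hr
    obtain ⟨o1, o2⟩ := hF.ok _ (ad τ hτ) hr
    obtain ⟨q1, -, q3, -⟩ := rsc.2.1 _ x₀ _ (Real.exp_pos τ) o1
    rw [← rsl_eq] at q1 q3
    have o3 := rsl_ok (x₀ := x₀) rsc k.toOk m.1 m.2
    exact ⟨o3, q1, P218R.rsl_ar rsc k m.1 m.2, (((ind _ _ o3 q1).1 (gG τ)).2.2.2.1 G).2 (q3 G o2)⟩
  obtain ⟨null, hZ⟩ := zf top lz ac hF g hI hR.toFam ((mI _ le_rfl).2 r1) ((mI _ h12).2 r2) hb R'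
  have ae : ∀ᵐ τ ∂volume.restrict (Icc τ₁ τ₂), τ₁ ≤ τ ∧ RegS F t₀ τ := by
    refine (ae_restrict_iff' measurableSet_Icc).2 ?_
    filter_upwards [measure_eq_zero_iff_ae_notMem.1 ((Real.volume_preimage_mul_left two_ne_zero
      _).trans (by rw [null, mul_zero]))] with τ k hτ
    exact ⟨hτ.1, (mI τ hτ.1).1 (by_contra fun e => k ⟨⟨by linarith [hτ.1], by linarith [hτ.2]⟩, e⟩)⟩
  set h : ℝ → ℝ := fun τ => ∫ x in ball 0 R', (W.rsl x₀ t₀ τ).φ x ^ 2 ∂(W.rsl x₀ t₀ τ).μ with hh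
  have h0 : ∀ τ, 0 ≤ h τ := fun τ => integral_nonneg fun _ => sq_nonneg _
  have ds : ∀ τ, τ₁ ≤ τ → RegS F t₀ τ → ENNReal.ofReal (h τ) = P218E.dsb (F.rsl x₀ t₀ τ) R' :=
    fun τ hτ hr => (dsb_eq (hS τ hτ hr).1 R').trans
      (((ind _ _ (hS τ hτ hr).1 (hS τ hτ hr).2.1).1 (gG τ)).2.1 R')
  have hm' : AEMeasurable h (volume.restrict (Icc τ₁ τ₂)) :=
    (meas (F := W) (Λ := Λ) (J := (fun τ => 2 * τ) ⁻¹' I) (oI.preimage (by fun_prop)).measurableSet x₀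
      (fun τ hτ => by
        have k := (hI _).1 hτ
        rw [← neg_mul] at k
        exact hW _ ⟨k.1, by linarith [Real.exp_pos (-2 * τ)]⟩ k.2) R').mono_measure
      (Measure.restrict_mono_ae ((ae_restrict_iff' measurableSet_Icc).1
        (ae.mono fun τ k => (mI τ k.1).2 k.2)))
  rw [← lintegral_congr_ae (ae.mono fun τ k => ds τ k.1 k.2)] at hd
  have hi : IntegrableOn h (Icc τ₁ τ₂) := ⟨hm'.aestronglyMeasurable,
    (hasFiniteIntegral_iff_ofReal (Eventually.of_forall h0)).2 (hd.trans_lt ENNReal.ofReal_lt_top)⟩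
  have hJ : ∫ τ in τ₁..τ₂, h τ ≤ D₀ / 2 := by
    rw [intervalIntegral.integral_of_le h12, ← integral_Icc_eq_integral_Ioc,
      ← ENNReal.ofReal_le_ofReal_iff (half_pos h3).le,
      ofReal_integral_eq_lintegral_ofReal hi (Eventually.of_forall h0)]
    exact hd
  have hS' := fun σ (hσ : σ ∈ Icc (2 * τ₁) (2 * τ₂)) (k : σ ∈ I) =>
    hS (σ / 2) (by linarith [hσ.1]) (by rw [RegS, e3]; exact ((hI σ).1 k).2)
  obtain ⟨s1, s2, -⟩ := hS _ le_rfl r1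
  obtain ⟨j, hj, hT⟩ := H _ _ (2 * τ₁) (2 * τ₂) e (fun σ => h (σ / 2)) hR
    (by linarith) ((mI _ le_rfl).2 r1) ((mI _ h12).2 r2) null hZ
    (fun σ hσ k => ⟨ar (hS' σ hσ k).2.2.1, gb (hS' σ hσ k).1 (hS' σ hσ k).2.2.2⟩) he0 he1
    (by
      have := ((intervalIntegrable_iff_integrableOn_Icc_of_le h12).2 hi).comp_mul_left (c := 2⁻¹)
      simp only [div_inv_eq_mul, ← div_eq_inv_mul, mul_comm _ (2 : ℝ)] at this
      exact (intervalIntegrable_iff_integrableOn_Icc_of_le (by linarith)).1 this)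
    (fun σ hσ k => (phi_int (hS' σ hσ k).1 R').le)
    (by rw [intervalIntegral.integral_comp_div h two_ne_zero, mul_div_cancel_left₀ _ two_ne_zero,
      mul_div_cancel_left₀ _ two_ne_zero, smul_eq_mul]; linarith)
    (by
      simp only [e2]
      rw [← gm] at hp
      refine ENNReal.toReal_le_of_le_ofReal h2.le ((measure_mono fun x hx => ?_).trans hp)
      obtain ⟨a1, a2, y, a3, a4⟩ := hx
      rw [n_eq s1 a2] at a4
      exact ⟨mem_ball_zero_iff.2 a1, (((ind _ _ s1 s2).1 (gG _)).2.2.1 x a2 e).1 ⟨y, a3, a4⟩⟩)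
    (by
      simp only [e2]
      rw [phi_int (hS _ h12 r2).1, ← ENNReal.ofReal_le_one]
      exact (ds _ h12 r2).trans_le hf)
  refine ⟨j, hj, fun ⟨Z, z1, z2, z3, z4⟩ => hT ⟨Z, fun z hz => ⟨?_, ?_⟩, fun z hz z' hz' hn =>
    dist_eq_norm z z' ▸ z2 hz hz' hn, z3⟩⟩
  · linarith [z1 z hz, le_abs_self R₀]
  · have := (low' _ (hS _ h12 r2).1).1
    simp only [e2]
    rw [← mul_assoc]
    exact (ENNReal.ofReal_le_iff_le_toReal
      (measure_ball_lt_top (μ := (W.rsl x₀ t₀ τ₂).μ)).ne).1 (gm τ₂ ▸ z4 z hz)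

end Vale.Agent.P218M2
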