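import Vale.Agent.P218M2.Spec
import Vale.Agent.P218M1.PsitB

/-!
# P218M2: the functional with a cutoff depends on the surface near the segments only
-/

open MeasureTheory Metric Filter Topology Set
open Vale.Agent.P218M1

namespace Vale.Agent.P218M2

namespace Cgi

variable {S T : Sf} {U : Set E} {π : Par} {ζ f g : Q → ℝ} {x θ : E} {z : Q}

theorem rs (a : Ag S T U) (h : ∀ l, (f (x, θ, l) = 0 ∧ g (x, θ, l) = 0) ∨
    (x + l • θ ∈ U ∧ (S.w (x + l • θ) = 0 → f (x, θ, l) = g (x, θ, l)))) :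
    S.RS f x θ = T.RS g x θ := finsum_congr fun l => by
  rcases h l with ⟨h1, h2⟩ | ⟨h1, h2⟩
  · simp [h1, h2]
  · exact finsum_congr_Prop (propext (a.z _ h1)) fun e => h2 ((a.z _ h1).2 e)

theorem seg (R : Sf) (hπ : π.Rg) (h : ∀ z : Q, ‖z.2.1‖ = 1 → ‖z.1‖ ≤ 3 * π.R → 0 < z.2.2 →
    z.2.2 ≤ 2 → ζ z ≠ 0 → Seg z U) (h1 : ‖z.2.1‖ = 1) (n : R.Psi π z * ζ z ≠ 0) :
    0 < z.2.2 ∧ Seg z U := by
  have b : R.Box π z := by_contra fun b => left_ne_zero_of_mul n (Psit.off' hπ b 0).1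
  have d : 0 < z.2.2 := (half_pos hπ.ρ0).trans_le b.2.1
  exact ⟨d, h z h1 b.1 d b.2.2.1 (right_ne_zero_of_mul n)⟩

theorem off (R : Sf) (hπ : π.Rg) (h : ∀ z : Q, ‖z.2.1‖ = 1 → ‖z.1‖ ≤ 3 * π.R → 0 < z.2.2 →
    z.2.2 ≤ 2 → ζ z ≠ 0 → Seg z U) (n : x ∉ U) : R.AV (fun z => R.Psi π z * ζ z) x = 0 := by
  refine integral_eq_zero_of_ae (.of_forall fun u => ?_)
  by_cases hu : u = 0
  · simp [hu, gam_zero]
  have e : ∀ l, R.Psi π (x, un u, l) * ζ (x, un u, l) = 0 := fun l => by_contra fun q => by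
    obtain ⟨d, s⟩ := seg (z := (x, un u, l)) R hπ h (norm_un hu) q
    exact n (by simpa using s 0 ⟨le_rfl, d.le⟩)
  simp [Sf.RS, e]

variable (cg : CGP) (hS : S.Ok) (hT : T.Ok) (hU : IsOpen U) (a : Ag S T U)
include cg hS hT hU a

theorem cc (hx : x ∈ U) (h : S.w x = 0) (θ : E) :
    |S.cc x θ| = |T.cc x θ| ∧ S.cc x θ ^ 2 = T.cc x θ ^ 2 := by
  obtain ⟨s, h1, h2, -⟩ := cg.pt S T x hS hT (by
    filter_upwards [hU.mem_nhds hx] with y hy using a.z y hy) h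
  rcases h1 with rfl | rfl <;> simp [Sf.cc, h2]

theorem psi (hπ : π.Rg) (d : 0 < z.2.2) (s : Seg z U) (h1 : S.w z.1 = 0) (h2 : S.w (yy z) = 0) :
    S.Psi π z = T.Psi π z := by
  have c1 := cc cg hS hT hU a (by simpa using s 0 ⟨le_rfl, d.le⟩) h1 z.2.1
  have c2 := cc cg hS hT hU a (s _ ⟨d.le, le_rfl⟩) h2 z.2.1
  have c3 : S.N π z = T.N π z := by
    unfold Sf.N Sf.NS
    refine rs a fun l => ?_
    by_cases l0 : l ≤ 0
    · exact .inl (by simp [hπ.xi_zero (l0.trans (half_pos hπ.ρ0).le)])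
    by_cases l1 : z.2.2 - l ≤ 0
    · exact .inl (by simp [hπ.xi_zero (l1.trans (half_pos hπ.ρ0).le)])
    have m := s l ⟨by linarith, by linarith⟩
    exact .inr ⟨m, fun e => by simp only [Sf.cs2, yy, (cc cg hS hT hU a m e _).2]⟩
  simp only [Sf.Psi, Sf.Wt, Sf.o0, Sf.tt, Sf.kk, Sf.cs1, Sf.cs2, c1.1, c1.2, c3]
  rw [show S.cc (yy z) z.2.1 ^ 2 = _ from c2.2]
  rfl

end Cgi

open Cgi in
theorem cgi (cg : CGP) : CGI := fun S T U π ζ hS hT hU a hπ h => by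
  rw [Sf.II, Sf.II, ← setIntegral_eq_integral_of_forall_compl_eq_zero fun _ => off S hπ h,
    ← setIntegral_eq_integral_of_forall_compl_eq_zero fun _ => off T hπ h, ← a.m]
  refine integral_congr_ae ?_
  filter_upwards [ae_restrict_mem hU.measurableSet, ae_restrict_of_ae hS.sup] with x hx hw
  refine integral_congr_ae (.of_forall fun u => ?_)
  by_cases hu : u = 0
  · simp [hu, gam_zero]
  have e : S.RS (fun z => S.Psi π z * ζ z) x (un u) = T.RS (fun z => T.Psi π z * ζ z) x (un u) :=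
    rs a fun l => by
      by_cases q : S.Psi π (x, un u, l) * ζ (x, un u, l) = 0 ∧
        T.Psi π (x, un u, l) * ζ (x, un u, l) = 0
      · exact .inl q
      obtain ⟨d, s⟩ : 0 < l ∧ Seg (x, un u, l) U := (not_and_or.1 q).elim
        (seg (z := (x, un u, l)) S hπ h (norm_un hu)) (seg (z := (x, un u, l)) T hπ h (norm_un hu))
      exact .inr ⟨s l ⟨d.le, le_rfl⟩, fun e => by rw [psi cg hS hT hU a hπ d s hw e]⟩
  simp only [e, (cc cg hS hT hU a hx hw _).1]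

end Vale.Agent.P218M2
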