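import Vale.Agent.P218M2.Spec
import Vale.Agent.P218M1.Gd
import Vale.Agent.P218M1.PsitA
import Vale.Agent.P218R.Base0

/-!
# P218M2, row CGP: the geometric quantities depend on the zero set only
-/

open Filter Topology Set
open scoped ContDiff RealInnerProductSpace
open Vale.Agent.P218M1 Vale.Agent.P218M1.Sf
open Vale.Agent.P218R (tan_zero tan_prop)

namespace Vale.Agent.P218M2

namespace Cgp

variable {S T : Sf} {x : E}

theorem dn (hS : S.Ok) (h : S.g x ≠ 0) :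
    ∃ L : E →L[ℝ] E, HasFDerivAt S.n L x ∧ ∀ v, ⟪S.g x, v⟫ = 0 → L v = -S.A x v :=
  ⟨_, ((Gd.hn hS (Gd.hx (x, 0) 0) h (by simp)).1.hasFDerivAt.comp x (f := fun y => (y, 0))
    (hasFDerivAt_prodMk_left x 0) :), fun v hv => (Gd.hn hS (Gd.hx (x, 0) (v, 0)) h hv).2⟩

theorem fd_ne (h : S.g x ≠ 0) : fderiv ℝ S.w x ≠ 0 := fun e =>
  h (by rw [Sf.g, gradient, e, map_zero])

theorem prop (hS : S.Ok) (hT : T.Ok) (e : ∀ᶠ y in 𝓝 x, S.w y = 0 ↔ T.w y = 0)
    (hx : S.w x = 0) : ∃ c : ℝ, T.g x = c • S.g x := by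
  obtain ⟨c, hc⟩ := tan_prop (hS.sm.contDiffAt.of_le (cast_le_inf 1)) hx (fd_ne (hS.reg x hx))
    (hT.hw x).differentiableAt (e.mono fun y hy => hy.1)
  exact ⟨c, by rw [Sf.g, gradient, hc, map_smul, Sf.g, gradient]⟩

theorem pt (S T : Sf) (x : E) (hS : S.Ok) (hT : T.Ok) (e : ∀ᶠ y in 𝓝 x, S.w y = 0 ↔ T.w y = 0)
    (hx : S.w x = 0) : ∃ s : ℝ, (s = 1 ∨ s = -1) ∧ T.n x = s • S.n x ∧ T.A x = s • S.A x := by
  obtain ⟨c, hc⟩ := prop hS hT e hx
  have g1 := hS.reg x hx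
  have g2 := hT.reg x (e.self_of_nhds.1 hx)
  have c0 : c ≠ 0 := fun h => g2 (by rw [hc, h, zero_smul])
  have hs : c / |c| = 1 ∨ c / |c| = -1 := (abs_choice c).imp
    (fun h => by rw [h, div_self c0]) fun h => by rw [h, div_neg, div_self c0]
  have h2 : ∀ᶠ y in 𝓝 x, 0 < c * ⟪T.g y, S.g y⟫ :=
    (continuous_const.mul (hT.sg.continuous.inner hS.sg.continuous)).continuousAt.eventually
      (lt_mem_nhds (show 0 < c * ⟪T.g x, S.g x⟫ by
        rw [hc, real_inner_smul_left, ← mul_assoc]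
        exact mul_pos (mul_self_pos.2 c0) (real_inner_self_pos.2 g1)))
  have h3 : ∀ᶠ y in 𝓝 x, S.w y = 0 → T.n y - (c / |c|) • S.n y = 0 := by
    filter_upwards [h2, e.eventually_nhds] with y a2 a3 hy
    obtain ⟨d, hd⟩ := prop hS hT a3 hy
    rw [hd, real_inner_smul_left, ← mul_assoc] at a2
    rw [sub_eq_zero, Sf.n, Sf.n, hd, norm_smul, smul_smul, smul_smul, Real.norm_eq_abs]
    congr 1
    rcases pos_and_pos_or_neg_and_neg_of_mul_pos
      (pos_of_mul_pos_left a2 real_inner_self_nonneg) with ⟨b1, b2⟩ | ⟨b1, b2⟩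
    · rw [abs_of_pos b1, abs_of_pos b2]
      field_simp
    · rw [abs_of_neg b1, abs_of_neg b2]
      have := b2.ne
      field_simp
  have hn := sub_eq_zero.1 (h3.self_of_nhds hx)
  refine ⟨_, hs, hn, ContinuousLinearMap.ext fun v => ?_⟩
  obtain ⟨L, l1, l2⟩ := dn hS g1
  obtain ⟨L', l3, l4⟩ := dn hT g2
  have d := l3.sub (l1.const_smul (c / |c|))
  have h4 := tan_zero (hS.sm.contDiffAt.of_le (cast_le_inf 1)) hx (fd_ne g1) d.differentiableAt h3
    ((inner_grad _ _ _).symm.trans (g_P g1 v))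
  have h5 : T.P x v = S.P x v := by
    rw [P_apply, P_apply, hn]
    rcases hs with h | h <;> simp [h]
  rw [d.fderiv, sub_apply, smul_apply, l2 _ (g_P g1 v), A_P g1, ← h5, l4 _ (g_P g2 v), A_P g2,
    smul_neg, neg_sub_neg, sub_eq_zero] at h4
  exact h4.symm

end Cgp

theorem cgp : CGP where
  pt := Cgp.pt
  eq S T I I' τ x hS hT h h' e hx := by
    have hx' := e.self_of_nhds.2 hx
    have o := hS.ok τ h
    have g1 := o.reg x hx'
    obtain ⟨s, -, h1, h2⟩ := Cgp.pt (S τ) (T τ) x o (hT.ok τ h')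
      ((Continuous.prodMk_right τ).continuousAt.eventually e) hx'
    obtain ⟨c, hc⟩ := tan_prop ((Psit.sW hS.toFam h x).of_le (cast_le_inf 1)) hx' (fun a => g1
      (inner_self_eq_zero.1 ((Psit.g_eq hS.toFam h x _).trans (by rw [a]; rfl))))
      (Psit.dW hT h' x).differentiableAt (e.mono fun p hp => hp.1)
    have h3 := Psit.g_eq hT h' x ((S τ).n x)
    rw [hc, smul_apply, ← Psit.g_eq hS.toFam h, (T τ).g_eq, (S τ).g_eq, h1, real_inner_smul_left,
      real_inner_smul_left, real_inner_smul_left, nn g1, smul_eq_mul] at h3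
    rw [Psit.wd_eq hT h', hc, smul_apply, ← Psit.wd_eq hS.toFam h, hS.eq τ h x hx', Sf.φ, Sf.φ,
      Sf.H, Sf.H, h1, h2, trc_smul, real_inner_smul_right, smul_eq_mul]
    linear_combination (trc ((S τ).A x) + ⟪x, (S τ).n x⟫ / 2) * h3

end Vale.Agent.P218M2
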