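import Vale.Agent.P218M2.Spec
import Vale.Agent.P218M1.KitAll

/-!
# P218M2: few proper pairs have a segment which meets a given ball
-/

open MeasureTheory Metric Filter Topology Set
open scoped ContDiff RealInnerProductSpace ENNReal
open Vale.Agent.P218M1

noncomputable section

namespace Vale.Agent.P218M2

namespace Cnt

variable {S : Sf} {π : Par} {Λ r : ℝ} {f : Q → ℝ} {c θ : E}

theorem fs_pos {p : ℝ → Prop} {g : ℝ → ℝ} (h : 0 < ∑ᶠ (d : ℝ) (_ : p d), g d) :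
    ∃ d, p d ∧ 0 < g d := by
  by_contra a
  refine h.not_ge (finsum_induction (· ≤ (0 : ℝ)) le_rfl (fun _ _ => add_nonpos) fun d =>
    finsum_induction (· ≤ (0 : ℝ)) le_rfl (fun _ _ => add_nonpos) fun b => ?_)
  exact not_lt.1 fun e => a ⟨d, b, e⟩

theorem fs_le {p : ℝ → Prop} {g : ℝ → ℝ} {b : ℝ} (b0 : 0 ≤ b) (h1 : ∀ d, p d → 0 < g d → g d ≤ b)
    (h2 : ∀ d d', p d → 0 < g d → p d' → 0 < g d' → ¬ d < d') :
    ∑ᶠ (d : ℝ) (_ : p d), g d ≤ b := by
  classical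
  set G : ℝ → ℝ := fun d => ∑ᶠ (_ : p d), g d with hG
  have e : ∀ d, 0 < G d → p d ∧ 0 < g d ∧ G d = g d := fun d h => by
    simp only [hG, finsum_eq_if] at h ⊢
    split_ifs at h ⊢ with a
    exacts [⟨a, h, rfl⟩, absurd h (lt_irrefl _)]
  by_cases hs : (Function.support G).Finite
  · rw [finsum_eq_sum G hs, ← Finset.sum_filter_add_sum_filter_not _ fun d => 0 < G d]
    refine (add_le_of_nonpos_right (Finset.sum_nonpos fun d hd =>
      not_lt.1 (Finset.mem_filter.1 hd).2)).trans ?_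
    have k : (hs.toFinset.filter fun d => 0 < G d).card ≤ 1 :=
      Finset.card_le_one.2 fun d hd d' hd' => by
        obtain ⟨a1, a2, -⟩ := e d (Finset.mem_filter.1 hd).2
        obtain ⟨a3, a4, -⟩ := e d' (Finset.mem_filter.1 hd').2
        exact le_antisymm (not_lt.1 (h2 d' d a3 a4 a1 a2)) (not_lt.1 (h2 d d' a1 a2 a3 a4))
    refine (Finset.sum_le_card_nsmul _ _ b fun d hd => ?_).trans ?_
    · obtain ⟨a1, a2, a3⟩ := e d (Finset.mem_filter.1 hd).2
      exact a3.trans_le (h1 d a1 a2)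
    · rw [nsmul_eq_mul]
      exact mul_le_of_le_one_left b0 (by exact_mod_cast k)
  · rw [finsum_of_infinite_support hs]
    exact b0

theorem cvx (x θ c : E) (r : ℝ) : OrdConnected {t : ℝ | ‖x + t • θ - c‖ ≤ r} := by
  refine Convex.ordConnected fun a ha b hb u v hu hv huv => ?_
  have := convex_closedBall c r (mem_closedBall_iff_norm.2 ha) (mem_closedBall_iff_norm.2 hb)
    hu hv huv
  have e : u • (x + a • θ) + v • (x + b • θ) = x + (u • a + v • b) • θ := by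
    rw [smul_add, smul_add, add_add_add_comm, ← add_smul, huv, one_smul, smul_smul, smul_smul,
      ← add_smul, smul_eq_mul, smul_eq_mul]
  rw [e] at this
  exact mem_closedBall_iff_norm.1 this

/-- at most one pair on a line -/
theorem LS_le (hG : Good S π Λ) (hr : 0 < r) (hf : S.Cl π 0 f) (hθ : ‖θ‖ = 1)
    (H : ∀ z, S.Hit z → S.Box π z → 0 < f z → S.Sq π z ∧ f z ≤ 1 ∧ r < ‖z.1 - c‖ ∧
      ∃ l ∈ Icc 0 z.2.2, ‖z.1 + l • z.2.1 - c‖ ≤ r) (p : E) :
    S.LS (S.RS f · θ) p θ ≤ indicator {p | ∃ l : ℝ, p + l • θ ∈ ball c (2 * r)} 1 p := by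
  have hb : ∀ (x : E) (d : ℝ), S.w x = 0 → S.w (x + d • θ) = 0 → 0 < f (x, θ, d) →
      S.Hit (x, θ, d) ∧ S.Box π (x, θ, d) := fun x d a b e => by
    have k : S.Box π (x, θ, d) :=
      by_contra fun k => e.ne' (hf.bx _ (hG.ok.reg _ a) (hG.ok.reg _ b) k)
    exact ⟨⟨a, hθ, by linarith [hG.rg.ρ0, k.2.1], b⟩, k⟩
  refine fs_le (indicator_apply_nonneg fun _ => zero_le_one) (fun l a b => ?_)
    fun l l' a b a' b' k => ?_
  · obtain ⟨d, d1, d2⟩ := fs_pos b
    obtain ⟨-, -, -, s, -, s2⟩ := H _ (hb _ d a d1 d2).1 (hb _ d a d1 d2).2 d2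
    rw [indicator_of_mem (show p ∈ {p | ∃ l : ℝ, p + l • θ ∈ ball c (2 * r)} from ⟨l + s, by
      rw [mem_ball_iff_norm, add_smul, ← add_assoc]
      exact lt_of_le_of_lt s2 (by linarith)⟩), Pi.one_apply]
    refine fs_le zero_le_one (fun t t1 t2 => (H _ (hb _ t a t1 t2).1 (hb _ t a t1 t2).2 t2).2.1)
      fun t t' t1 t2 t3 t4 k => ?_
    have m := hb _ t a t1 t2
    have m' := hb _ t' a t3 t4
    linarith [(unq.u1 S π Λ _ θ t t' hG m.1 m'.1 m'.2 k (H _ m.1 m.2 t2).1.2.2.1).1,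
      (H _ m'.1 m'.2 t4).1.2.2.2.1]
  · obtain ⟨d, d1, d2⟩ := fs_pos b
    obtain ⟨d', d3, d4⟩ := fs_pos b'
    have m := hb _ d a d1 d2
    have m' := hb _ d' a' d3 d4
    obtain ⟨q1, -, -, s, s1, s2⟩ := H _ m.1 m.2 d2
    obtain ⟨-, -, q2, s', s3, s4⟩ := H _ m'.1 m'.2 d4
    have e : p + l • θ + (l' - l) • θ = p + l' • θ := by rw [add_assoc, ← add_smul, add_sub_cancel]
    rcases lt_or_ge (l' - l) d with k' | k'
    · have e' : yy (p + l • θ, θ, l' - l) = p + l' • θ := e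
      have := (unq.u1 S π Λ _ θ (l' - l) d hG ⟨a, hθ, sub_pos.2 k, by rw [e']; exact a'⟩ m.1 m.2 k'
        (by rw [Sf.cs2, e']; linarith [show 1 / 2 ≤ S.cc (p + l' • θ) θ ^ 2 from m'.2.2.2.2.1])).1
      linarith [q1.2.2.2.1]
    · have := (cvx (p + l • θ) θ c r).out (x := s) (y := l' - l + s') s2
        (by rw [mem_ofPred_eq, add_smul, ← add_assoc, e]; exact s4)
        (show l' - l ∈ Icc s (l' - l + s') from ⟨s1.2.trans k', le_add_of_nonneg_right s3.1⟩)
      rw [mem_ofPred_eq, e] at this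
      exact q2.not_ge this

theorem II_le (hG : Good S π Λ) (hr : 0 < r) (hf : S.Cl π 0 f)
    (H : ∀ z, S.Hit z → S.Box π z → 0 < f z → S.Sq π z ∧ f z ≤ 1 ∧ r < ‖z.1 - c‖ ∧
      ∃ l ∈ Icc 0 z.2.2, ‖z.1 + l • z.2.1 - c‖ ≤ r) :
    S.II f ≤ (∫ u, gam u) * (Real.pi * (2 * r) ^ 2) := by
  have := hG.ok.fin
  have i := ca'.ix S π f hG.ok hG.rg hf
  unfold Sf.II Sf.AV
  rw [integral_integral_swap i, ← integral_mul_const]
  refine integral_mono i.integral_prod_right (Tr.int_gam.mul_const _) fun u => ?_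
  by_cases h : u = 0
  · simp [h, Tr.gam_zero]
  have hθ := norm_un h
  obtain ⟨l1, l2⟩ := Swp.lin_rs ca' lin' hG.ok hG.rg hf hθ
  obtain ⟨k1, k2⟩ := con.cyl c (un u) (2 * r) hθ (by positivity)
  simp only [integral_const_mul]
  rw [l2]
  exact mul_le_mul_of_nonneg_left ((integral_mono l1 k1 fun p =>
    mul_le_mul_of_nonneg_left (LS_le hG hr hf hθ H p) (Lin.bet_nn _)).trans k2) (Tr.gam0 u)

end Cnt

open Cnt

theorem cnt : CNT := by
  obtain ⟨C, C0, hC⟩ := me'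
  have g0 : 0 ≤ ∫ u, gam u := integral_nonneg Tr.gam0
  have p0 := Real.pi_pos
  refine ⟨C + 4 * Real.pi * ∫ u, gam u, by positivity, fun S π Λ r h χ c hG hr hh cχ χ0 H => ?_⟩
  have := hG.ok.fin
  have := Tr.cct
  set κ : E → ℝ := fun x => ct (‖x - c‖ / r) with hκ
  have cκ : Continuous κ := by fun_prop
  have κ0 : ∀ x, 0 ≤ κ x := fun x => Tr.ct0 _
  have κ1 : ∀ x, κ x ≤ 1 := fun x => Tr.ct1 _
  have l1 : S.Cl π 0 fun z => h z * κ z.1 :=
    hh.mul fun z _ => (contDiff_zero.2 (by fun_prop)).contDiffAt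
  have l2 : S.Cl π 0 fun z => h z * (1 - κ z.1) :=
    hh.mul fun z _ => (contDiff_zero.2 (by fun_prop)).contDiffAt
  have e : S.II h = S.II (fun z => h z * κ z.1) + S.II fun z => h z * (1 - κ z.1) := by
    rw [← Sf.II_add hG.ok hG.rg l1 l2]
    congr 1
    funext z
    ring
  have z0 : S.Cg fun _ => 0 := fun x _ => ⟨continuousAt_const, le_rfl⟩
  have a1 := hC S π Λ 1 0 0 0 _ (fun x => κ x * χ x) _ _ _ _ hG one_pos le_rfl le_rfl le_rfl l1
    (fun x _ => ⟨(cκ.mul cχ).continuousAt, mul_nonneg (κ0 x) (χ0 x)⟩) z0 z0 z0 z0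
    (fun x _ _ a => by simp at a) fun z a b k => by
      obtain ⟨q1, -, q2, -⟩ := H z a b (pos_of_mul_pos_left k (κ0 _))
      refine ⟨q1, by nlinarith [show 0 ≤ S.cs2 z from sq_nonneg _], ?_⟩
      simpa [Sf.NS, Sf.RS, mul_comm (κ z.1)] using mul_le_mul_of_nonneg_right q2 (κ0 z.1)
  have a2 := II_le (c := c) hG hr l2 fun z a b k => by
    have k1 := sub_nonneg.2 (κ1 z.1)
    obtain ⟨q1, q2, -, q3⟩ := H z a b (pos_of_mul_pos_left k k1)
    exact ⟨q1, mul_le_one₀ q2 k1 (sub_le_self _ (κ0 _)),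
      (one_lt_div hr).1 (Tr.ct_gt (right_ne_zero_of_mul k.ne')), q3⟩
  have i : IntegrableOn χ (ball c (2 * r)) S.μ :=
    (cχ.continuousOn.integrableOn_compact (isCompact_closedBall c (2 * r))).mono_set
      ball_subset_closedBall
  have a3 : S.IB π (fun x => κ x * χ x) ≤ ∫ x in ball c (2 * r), χ x ∂S.μ := by
    rw [Sf.IB, ← integral_indicator measurableSet_ball, ← integral_indicator measurableSet_ball]
    refine integral_mono_of_nonneg (.of_forall fun x => indicator_apply_nonneg fun _ =>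
      mul_nonneg (κ0 x) (χ0 x)) ((integrable_indicator_iff measurableSet_ball).2 i)
      (.of_forall fun x => indicator_apply_le' (fun _ => ?_) fun _ =>
        indicator_apply_nonneg fun _ => χ0 x)
    by_cases k : κ x = 0
    · rw [k, zero_mul]
      exact indicator_apply_nonneg fun _ => χ0 x
    · rw [indicator_of_mem (mem_ball_iff_norm.2 ((div_lt_iff₀ hr).1 (Tr.ct_lt k)))]
      exact mul_le_of_le_one_left (χ0 x) (κ1 x)
  have a4 : 0 ≤ S.IB π fun x => κ x * χ x := integral_nonneg fun x => mul_nonneg (κ0 x) (χ0 x)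
  have a5 : S.IB π (fun _ => 0) = 0 := integral_zero _ _
  have a6 : π.α ^ 2 ≤ 1 := by nlinarith [hG.rg.α0, hG.rg.α1]
  rw [a5] at a1
  have a7 := mul_le_mul_of_nonneg_left ((mul_le_of_le_one_left a4 a6).trans a3) C0.le
  have a8 : 0 ≤ 4 * Real.pi * (∫ u, gam u) * ∫ x in ball c (2 * r), χ x ∂S.μ :=
    mul_nonneg (by positivity) (a4.trans a3)
  nlinarith [mul_nonneg C0.le (sq_nonneg r)]

end Vale.Agent.P218M2
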