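import Vale.Agent.P218M2.Core

/-!
# P218M2: the main theorem of the block from the rows
-/

open MeasureTheory Metric Filter Topology Set
open scoped ContDiff RealInnerProductSpace
open Vale.Agent.P218M1 Vale.Agent.P218M1.Dp Vale.Agent.P218M1.Sf

noncomputable section

namespace Vale.Agent.P218M2

theorem ex_s {C : Cv} (hr : ∀ i, 0 < C.r i) {I I' : Set ℝ} (hI : IsOpen I) (hI' : IsOpen I') {τ : ℝ}
    (h : τ ∈ I') : ∃ s, 0 < s ∧ (∀ i, s ≤ C.r i ^ 2) ∧ Icc (τ - s) (τ + s) ⊆ I' ∧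
      (τ ∈ I → Icc (τ - s) (τ + s) ⊆ I) := by
  have k : ∀ {J : Set ℝ}, IsOpen J → ∀ᶠ s in 𝓝[>] (0 : ℝ), τ ∈ J → Icc (τ - s) (τ + s) ⊆ J :=
    fun {J} hJ => by
      by_cases h : τ ∈ J
      · obtain ⟨e, e0, he⟩ := Metric.isOpen_iff.1 hJ τ h
        filter_upwards [Ioo_mem_nhdsGT e0] with s hs _
        rw [← Real.closedBall_eq_Icc]
        exact (closedBall_subset_ball hs.2).trans he
      · simp [h]
  obtain ⟨s, h1, h2, h3, h4⟩ := ((eventually_mem_nhdsWithin (a := (0 : ℝ)) (s := Ioi 0)).and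
    ((eventually_all.2 fun i => (show ∀ᶠ s in 𝓝[>] (0 : ℝ), s ≤ C.r i ^ 2 from
      mem_of_superset (Ioo_mem_nhdsGT (pow_pos (hr i) 2)) fun s hs => hs.2.le)).and
        ((k hI').and (k hI)))).exists
  exact ⟨s, h1, h2, h3 h, h4⟩

/-- the functional with the cutoff, at all times -/
theorem glue (p2 : PSIT2) (ci : CGI) (s2 : SEP2) {S : ℝ → Sf} {I : Set ℝ} {a b R α ε R' Kz : ℝ}
    {C : Cv} {ζ : ℝ × Q → ℝ} {o : Fin C.n → Q → ℝ} (hF : Fam S I) (hR : 1 ≤ R) (hα : 0 < α)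
    (hα3 : α ≤ 1 / 10) (hε : 0 < ε) (hε1 : ε ≤ 1 / 10) (hRR : 3 * R + 3 ≤ R') (hr : ∀ i, 0 < C.r i)
    (hζ : Zt Kz C ζ o) (hreg : ∀ τ ∈ Icc a b, (∀ i, C.r i ^ 2 < |τ - C.t i|) → τ ∈ I)
    (hloc : ∀ τ₀ ∈ Icc a b, ∃ (I' : Set ℝ) (T : ℝ → Sf), τ₀ ∈ I' ∧ Fam T I' ∧
      ∀ σ ∈ I', (∃ Λ', (T σ).AR Λ') ∧ Ag (S σ) (T σ) (C.U R' τ₀)) :
    ∃ (π : Par) (f : ℝ → ℝ), π.Rg ∧ π.R = R ∧ π.α = α ∧ π.ε = ε ∧
      (∀ τ ∈ Icc a b, ∃ (T : ℝ → Sf) (I' : Set ℝ) (Λ' j : ℝ), Fam T I' ∧ τ ∈ I' ∧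
        Good (T τ) π Λ' ∧ (∀ i, |τ - j| ≤ C.r i ^ 2) ∧ (∀ σ ∈ I', Ag (S σ) (T σ) (C.U R' j)) ∧
        HasDerivAt f ((T τ).II (Jv (T τ) π (wd T τ) (fun z => ζ (τ, z))
          fun z => fderiv ℝ ζ (τ, z) (1, 0))) τ) ∧
      ∀ τ ∈ Icc a b, (∀ i, 3 * C.r i ^ 2 < |τ - C.t i|) → τ ∈ I ∧ Sep (S τ) π ∧
        f =ᶠ[𝓝 τ] fun σ => (S σ).FF π := by
  classical
  have : Inhabited Sf := ⟨S a⟩
  choose! I' T hI' hT hA using hloc
  choose! s s0 s1 s3 s4 using fun τ (hτ : τ ∈ Icc a b) => ex_s hr hF.op (hT τ hτ).op (hI' τ hτ)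
  obtain ⟨t, ht, hcov⟩ := isCompact_Icc.elim_nhds_subcover (fun τ => Ioo (τ - s τ) (τ + s τ))
    fun τ (hτ : τ ∈ Icc a b) => Ioo_mem_nhds (by linarith [s0 τ hτ]) (by linarith [s0 τ hτ])
  obtain ⟨η, ρ, hη, hη1, hρ, hsep⟩ := s2 (t ⊕ t) (Sum.elim (fun j => T j) fun _ => S)
    (Sum.elim (fun j => I' j) fun _ => I)
    (Sum.elim (fun j => j - s j) fun j => if (j : ℝ) ∈ I then j - s j else 1)
    (Sum.elim (fun j => j + s j) fun j => if (j : ℝ) ∈ I then j + s j else 0) R α ε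
    (fun j => by
      rcases j with j | j
      exacts [hT j (ht j j.2), hF])
    (fun j => by
      rcases j with j | j
      · exact s3 j (ht j j.2)
      · by_cases e : (j : ℝ) ∈ I
        · simpa [e] using s4 j (ht j j.2) e
        · simp [e]) hε
  set π : Par := ⟨R, α, ε, η, ρ⟩ with hπ
  have hrg : π.Rg := ⟨hR, hα, hα3, hε, hε1, hη, hη1, hρ⟩
  have cov : ∀ τ ∈ Icc a b, ∃ j ∈ t, τ ∈ Ioo (j - s j) (j + s j) := fun τ hτ => by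
    simpa only [mem_iUnion, exists_prop] using hcov hτ
  have nr : ∀ j ∈ t, ∀ σ ∈ Ioo (j - s j) (j + s j), ∀ i, |σ - j| ≤ C.r i ^ 2 :=
    fun j hj σ hσ i => (abs_le.2 ⟨by linarith [hσ.1], by linarith [hσ.2]⟩).trans (s1 j (ht j hj) i)
  have mI : ∀ j ∈ t, ∀ σ ∈ Ioo (j - s j) (j + s j), σ ∈ I' j := fun j hj σ hσ =>
    s3 j (ht j hj) (Ioo_subset_Icc_self hσ)
  let g : (ℝ → Sf) → ℝ → ℝ := fun W σ => (W σ).II fun z => (W σ).Psi π z * ζ (σ, z) ^ 2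
  let f : ℝ → ℝ := fun σ =>
    if e : ∃ j ∈ t, σ ∈ Ioo (j - s j) (j + s j) then g (T e.choose) σ else 0
  have f1 : ∀ j ∈ t, ∀ σ ∈ Ioo (j - s j) (j + s j), f σ = g (T j) σ := fun j hj σ hσ => by
    have e : ∃ j ∈ t, σ ∈ Ioo (j - s j) (j + s j) := ⟨j, hj, hσ⟩
    obtain ⟨hj', hσ'⟩ := e.choose_spec
    simp only [f, dif_pos e]
    generalize e.choose = j' at hj' hσ'
    exact ci _ _ (C.U R' j' ∩ C.U R' j) π _ ((hT _ (ht _ hj')).ok _ (mI _ hj' _ hσ'))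
      ((hT _ (ht _ hj)).ok _ (mI _ hj _ hσ)) ((C.U_open _ _).inter (C.U_open _ _))
      (((hA _ (ht _ hj') _ (mI _ hj' _ hσ')).2.mono inter_subset_left).symm.trans
        ((hA _ (ht _ hj) _ (mI _ hj _ hσ)).2.mono inter_subset_right)) hrg
      fun z a1 a2 _ a4 a5 l hl => ⟨hζ.seg hr (nr _ hj' _ hσ') hRR z a1 a2 a4 a5 l hl,
        hζ.seg hr (nr _ hj _ hσ) hRR z a1 a2 a4 a5 l hl⟩
  have f2 : ∀ j ∈ t, ∀ σ ∈ Ioo (j - s j) (j + s j), σ ∈ I → f σ = g S σ := fun j hj σ hσ hI =>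
    (f1 j hj σ hσ).trans (ci _ _ (C.U R' j) π _ (hF.ok _ hI) ((hT _ (ht _ hj)).ok _ (mI _ hj _ hσ))
      (C.U_open _ _) (hA _ (ht _ hj) _ (mI _ hj _ hσ)).2 hrg
      fun z a1 a2 _ a4 a5 => hζ.seg hr (nr _ hj _ hσ) hRR z a1 a2 a4 a5).symm
  refine ⟨π, f, hrg, rfl, rfl, rfl, fun τ hτ => ?_, fun τ hτ hi => ?_⟩
  · obtain ⟨j, hj, hτj⟩ := cov τ hτ
    obtain ⟨Λ', e⟩ := (hA _ (ht _ hj) _ (mI _ hj _ hτj)).1
    have hG : Good (T j τ) π Λ' := ⟨(hT _ (ht _ hj)).ok _ (mI _ hj _ hτj), e, hrg,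
      hsep (.inl ⟨j, hj⟩) τ (Ioo_subset_Icc_self hτj)⟩
    exact ⟨T j, I' j, Λ', j, hT _ (ht _ hj), mI _ hj _ hτj, hG, nr j hj τ hτj,
      fun σ hσ => (hA _ (ht _ hj) σ hσ).2,
      (p2 (T j) (I' j) π Λ' τ ζ (hT _ (ht _ hj)) (mI _ hj _ hτj) hG hζ.sm).2.congr_of_eventuallyEq
        (mem_of_superset (isOpen_Ioo.mem_nhds hτj) (f1 j hj))⟩
  · obtain ⟨j, hj, hτj⟩ := cov τ hτ
    have e1 : τ ∈ I := hreg τ hτ fun i => by linarith [hi i, pow_pos (hr i) 2]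
    have e2 : j ∈ I := hreg j (ht j hj) fun i => by
      linarith [hi i, nr j hj τ hτj i, abs_sub_le τ j (C.t i), pow_pos (hr i) 2]
    refine ⟨e1, hsep (.inr ⟨j, hj⟩) τ (by simpa [e2] using Ioo_subset_Icc_self hτj), ?_⟩
    filter_upwards [isOpen_Ioo.mem_nhds hτj, hF.op.mem_nhds e1, eventually_all.2 fun i =>
      (show ContinuousAt (fun σ => |σ - C.t i|) τ by fun_prop).eventually (lt_mem_nhds (hi i))]
      with σ a1 a2 a3
    rw [f2 j hj σ a1 a2]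
    simp only [g, hζ.one σ fun i => (a3 i).le, one_pow, mul_one]
    rfl

theorem ar4 {F C₁ AA PP Λ n B g P h N C' : ℝ} (h1 : F ≤ C₁ * (AA + PP + (1 + Λ) * n))
    (c1 : 0 < C₁) (h2 : AA ≤ B + 2 * g * P) (h3 : PP ≤ P) (h4 : P ≤ h) (h5 : 1 ≤ n) (h6 : 0 ≤ B)
    (h7 : 0 ≤ g) (h8 : 0 ≤ N) (h9 : 0 ≤ P) (h10 : 0 < C') : F ≤ C' * h +
      C₁ * (2 * g + 1) * max (h - N) 0 + (C₁ * (2 * g + 1) * N + C₁ * (B + 1 + |Λ|)) * n := by
  have a5 : h ≤ max (h - N) 0 + N * n := by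
    linarith [le_max_left (h - N) 0, mul_le_mul_of_nonneg_left h5 h8]
  have a6 : AA + PP + (1 + Λ) * n ≤ (2 * g + 1) * (max (h - N) 0 + N * n) + (B + 1 + |Λ|) * n := by
    linarith [mul_le_mul_of_nonneg_left (h4.trans a5) (show 0 ≤ 2 * g + 1 by positivity),
      mul_le_mul_of_nonneg_left h5 h6,
      mul_le_mul_of_nonneg_right (le_abs_self Λ) (zero_le_one.trans h5)]
  linarith [mul_le_mul_of_nonneg_left a6 c1.le, mul_nonneg h10.le (h9.trans h4)]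

theorem dp2 (K : Kit) (hM : MAIN) (hP : PSIT) (hD : DICH) (hL : LOW) (hU : UP) (hB : BAR)
    (ze : ZETA) (p2 : PSIT2) (ci : CGI) (s2 : SEP2) (bd : BAD) : DP2 := by
  classical
  intro Λ G κ m₀ R₀ hκ hm hR₀
  obtain ⟨R, α, l, C', ε₀, k, J, hR7, hα, hα3, hl, hC', hε₀, hε1, hk, H⟩ :=
    core K hM hD hL Λ G hκ hm hR₀
  obtain ⟨R', hR'⟩ : ∃ R', R' = 21 * (3 * R + 3) := ⟨_, rfl⟩
  rw [← hR'] at H
  refine ⟨R', l, l * k / 4 / C', ε₀, J, by linarith, hl, by positivity, hε₀, ?_⟩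
  intro S I a b ε h hF hab haI hbI hnull hZ hΛ hε hε0 hh hφ hD0 ha hb
  obtain ⟨Kz, -, ze⟩ := ze
  obtain ⟨C₁, hC₁, bd⟩ := bd R α ε Kz
  obtain ⟨B, hBe⟩ : ∃ B, B = 36 * |Λ| * R ^ 2 + |G| * (1 + |Λ| * R' ^ 4) := ⟨_, rfl⟩
  have hB0 : 0 ≤ B := by rw [hBe]; positivity
  obtain ⟨C₂, hC₂⟩ : ∃ C₂, C₂ = C₁ * (2 * |G| + 1) := ⟨_, rfl⟩
  have c2 : 0 < C₂ := by rw [hC₂]; positivity
  obtain ⟨N, N0, hN⟩ := ex_trunc hh (e := l * k / 4 / C₂) (by positivity)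
  obtain ⟨C₄, hC₄⟩ : ∃ C₄, C₄ = C₂ * N + C₁ * (B + 1 + |Λ|) := ⟨_, rfl⟩
  have c4 : 0 < C₄ := by rw [hC₄]; positivity
  obtain ⟨C, hr, hsum, hend, hreg, hloc⟩ := hZ (l * k / 24 / C₄) (by positivity)
  obtain ⟨ζ, o, hζ⟩ := ze C hr
  have hRR : 3 * R + 3 ≤ R' := by linarith
  obtain ⟨π, f, hrg, eR, eα, eε, d1, gd⟩ := glue p2 ci s2 hF.toFam (by linarith) hα hα3 hε
    (hε0.trans hε1) hRR hr hζ hreg hloc
  obtain ⟨hm1, Hg, He⟩ := H π hrg eR eα (eε ▸ hε0)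
  have hm0 : 0 < π.mm := hk.trans_le hm1
  have good : ∀ τ ∈ Icc a b, (∀ i, 3 * C.r i ^ 2 < |τ - C.t i|) → Good (S τ) π Λ ∧
      f =ᶠ[𝓝 τ] fun σ => (S σ).FF π := fun τ hτ hi =>
    have ⟨e1, e2, e3⟩ := gd τ hτ hi
    ⟨⟨hF.ok τ e1, (hΛ τ hτ e1).1, hrg, e2⟩, e3⟩
  have hp0 : ∀ τ, 0 ≤ ∫ x in ball 0 R', (S τ).φ x ^ 2 ∂(S τ).μ := fun τ =>
    integral_nonneg fun _ => sq_nonneg _
  obtain ⟨H₀, hH⟩ : ∃ H₀ : ℝ → ℝ, H₀ = fun τ => C' * h τ + C₂ * max (h τ - N) 0 + C₄ * C.act τ :=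
    ⟨_, rfl⟩
  have i1 : IntegrableOn (fun τ => max (h τ - N) 0) (Icc a b) :=
    (hh.sub (integrableOn_const (by simp))).pos_part
  have i2 : IntegrableOn (fun τ => C' * h τ + C₂ * max (h τ - N) 0) (Icc a b) :=
    (hh.const_mul C').add (i1.const_mul C₂)
  have i3 : IntegrableOn H₀ (Icc a b) := hH ▸ i2.add (C.act_int.1.integrableOn.const_mul C₄)
  have ae : (fun τ => if τ ∈ I then H₀ τ else max (deriv f τ) 0) =ᵐ[volume.restrict (Icc a b)]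
      H₀ := by
    refine (ae_restrict_iff' measurableSet_Icc).2 ?_
    filter_upwards [measure_eq_zero_iff_ae_notMem.1 hnull] with τ h1 h2
    exact if_pos (by_contra fun e => h1 ⟨h2, e⟩)
  have haa : a ∈ Icc a b := left_mem_Icc.2 hab
  have hbb : b ∈ Icc a b := right_mem_Icc.2 hab
  obtain ⟨ga, ea⟩ := good a haa fun i => by linarith only [(hend i).1, sq_nonneg (C.r i)]
  obtain ⟨gb, eb⟩ := good b hbb fun i => by linarith only [(hend i).2, sq_nonneg (C.r i)]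
  have key := hB f (deriv f) (fun τ => if τ ∈ I then H₀ τ else max (deriv f τ) 0) a b (l * π.mm) hab
    (fun τ hτ => by
      obtain ⟨T, I', Λ', j, -, -, -, -, -, d⟩ := d1 τ hτ
      exact d.differentiableAt.hasDerivAt) (i3.congr ae.symm)
    (fun τ hτ => by
      split_ifs with e
      · have := (hp0 τ).trans (hφ τ hτ e)
        have := C.act_nn τ
        rw [hH]
        positivity
      · exact le_max_right _ _) ?_ ?_ ?_
  · by_contra hn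
    push Not at hn
    rw [eb.self_of_nhds] at key
    exact key.not_ge (He (S b) gb hb (eε ▸ hn))
  · intro τ hτ h1 h2
    split_ifs with e
    swap
    · exact le_max_left _ _
    have h5 := hφ τ hτ e
    obtain ⟨ar, gb⟩ := hΛ τ hτ e
    rw [hH]
    by_cases hi : ∀ i, 3 * C.r i ^ 2 < |τ - C.t i|
    · obtain ⟨hg, ev⟩ := good τ hτ hi
      obtain ⟨p1, p3⟩ := hP S I π Λ τ hF e hg
      rw [ev.self_of_nhds] at h1 h2
      rw [ev.deriv_eq, p3.deriv]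
      linarith only [Hg (S τ) _ hg gb p1 h1 h2, mul_nonneg c4.le (C.act_nn τ),
        mul_nonneg c2.le (le_max_right (h τ - N) 0), mul_le_mul_of_nonneg_left h5 hC'.le]
    · push Not at hi
      obtain ⟨i, hi⟩ := hi
      obtain ⟨T, I', Λ', j, hT, m, hG, nr, ag, d⟩ := d1 τ hτ
      rw [d.deriv, hC₄, hC₂]
      refine ar4 (bd S T I I' π Λ Λ' R' τ j C ζ o hF hT e m hG eR eα eε ar hRR hr nr hζ ag) hC₁ ?_
        (int_mono (hF.ok τ e) (hF.ok τ e).cg_φ (eR ▸ hRR)) h5 (Cv.one_le_act hi) hB0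
        (abs_nonneg G) N0 (hp0 τ) hC'
      rw [hBe, hR', ← eR]
      exact AA_le' (hF.ok τ e) ar hrg gb
  · rw [ea.self_of_nhds]
    have := hU (S a) π Λ R' ga (by rw [eR]; linarith)
    rw [eε] at this
    linarith only [mul_le_mul_of_nonneg_left ha hm0.le, this]
  · rw [intervalIntegral.integral_of_le hab, ← integral_Icc_eq_integral_Ioc] at hD0 ⊢
    rw [integral_congr_ae ae, hH, integral_add i2 (C.act_int.1.integrableOn.const_mul C₄),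
      integral_add (hh.const_mul C') (i1.const_mul C₂), integral_const_mul, integral_const_mul,
      integral_const_mul]
    have h1 := mul_le_mul_of_nonneg_left hD0 hC'.le
    have h2 := mul_le_mul_of_nonneg_left hN c2.le
    have h3 := mul_le_mul_of_nonneg_left (((setIntegral_le_integral (s := Icc a b) C.act_int.1
      (.of_forall C.act_nn)).trans_eq C.act_int.2).trans
        (mul_le_mul_of_nonneg_left hsum (by norm_num : (0 : ℝ) ≤ 6))) c4.le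
    rw [mul_div_cancel₀ _ hC'.ne'] at h1
    rw [mul_div_cancel₀ _ c2.ne'] at h2
    rw [mul_left_comm, mul_div_cancel₀ _ c4.ne'] at h3
    linarith only [mul_le_mul_of_nonneg_left hm1 hl.le, mul_pos hl hm0, h1, h2, h3]

end Vale.Agent.P218M2
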