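import Vale.Agent.P218M2.Spec
import Vale.Agent.P218M1.Hw
import Vale.Agent.P218M1.KitAll

/-!
# P218M2, row HW2: the crude bound for the time derivative
-/

open MeasureTheory Metric Filter Topology Set
open scoped ContDiff RealInnerProductSpace ENNReal
open Vale.Agent.P218M1

noncomputable section

namespace Vale.Agent.P218M2

namespace H2

open Hw Gd Par

theorem amgm {a p q : ℝ} (hp : 0 ≤ p) (hq : 0 ≤ q) (h : a ^ 2 ≤ p * q) : 2 * |a| ≤ p + q := by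
  have : |2 * a| ≤ p + q :=
    abs_le_of_sq_le_sq (by nlinarith [sq_nonneg (p - q)]) (add_nonneg hp hq)
  rwa [abs_mul, abs_two] at this

theorem wt_nn (S : Sf) (π : Par) (z : Q) : 0 ≤ wt S π z :=
  mul_nonneg (Sf.Wt_nonneg S π z) (add_nonneg (G0_nonneg _) (sq_nonneg _))

theorem Psi_le (S : Sf) (π : Par) (z : Q) : S.Psi π z ≤ wt S π z :=
  mul_le_mul_of_nonneg_left (le_add_of_nonneg_right (sq_nonneg _)) (Sf.Wt_nonneg S π z)

section pw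

variable {R α : ℝ}

theorem tt0 (d : Dt R α) : 0 ≤ d.S.tt d.π d.z := Sf.tt_nonneg d.G.rg d.hit.2.2.1.le

theorem aa_sq (d : Dt R α) :
    aa d.S d.π G0 d.z ^ 2 + aa d.S d.π Gt d.z ^ 2 ≤ wt d.S d.π d.z := by
  have h1 := W_nonneg (π := d.π) d.z.1
  have h2 := W_le (π := d.π) d.z.1
  have h3 := G0_nonneg (d.S.tt d.π d.z)
  have h4 := G0_le (tt0 d)
  have h5 : d.π.W d.z.1 ^ 2 ≤ d.π.W d.z.1 := by nlinarith
  have h6 : G0 (d.S.tt d.π d.z) ^ 2 ≤ G0 (d.S.tt d.π d.z) := by nlinarith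
  rw [aa, aa, wt, Sf.Wt, Gt]
  calc _ = d.π.W d.z.1 ^ 2 * d.S.o0 d.π d.z ^ 2 * (G0 (d.S.tt d.π d.z) ^ 2 +
        (d.S.tt d.π d.z * G1 (d.S.tt d.π d.z)) ^ 2) := by ring
    _ ≤ _ := by gcongr

variable (K : Kit)
include K

theorem ph0 (d : Dt R α) : 0 ≤ d.Ph := (sq_nonneg _).trans (d.ph K).1

theorem v1_sq (d : Dt R α) : d.S.v1 d.v d.z ^ 2 ≤ 2 * d.Ph := by
  have h : d.S.cs1 d.z * d.S.v1 d.v d.z ^ 2 = _ := v_sq d.spd d.hit.1 d.O.1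
  nlinarith [(d.ph K).1, d.c1, sq_nonneg (d.S.v1 d.v d.z)]

theorem v2_sq (d : Dt R α) : d.S.v2 d.v d.z ^ 2 ≤ 4 * d.Ph := by
  have h : d.S.cs2 d.z * d.S.v2 d.v d.z ^ 2 = _ := v_sq d.spd d.hit.2.2.2 d.O.2.1
  nlinarith [(d.ph K).2.1, d.c2, sq_nonneg (d.S.v2 d.v d.z)]

theorem v21_sq (d : Dt R α) : (d.S.v2 d.v d.z - d.S.v1 d.v d.z) ^ 2 ≤ 12 * d.Ph := by
  nlinarith [v1_sq K d, v2_sq K d, sq_nonneg (d.S.v2 d.v d.z + d.S.v1 d.v d.z)]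

theorem FF_sq (i : Fin 3) : ∃ c, 0 < c ∧ ∀ d : Dt R α,
    FF d.S d.π d.v i d.z ^ 2 ≤ wt d.S d.π d.z * (c * d.Ph) := by
  have x := ub_xi (R := R) (α := α) K 4
  have c1 := ub_c1 (R := R) (α := α) K
  have c2 := ub_c2 (R := R) (α := α) K
  have n := ub_N (R := R) (α := α) K
  have q1 : Le (R := R) (α := α) (fun _ => 1) fun d => r1 d.S d.π d.z :=
    ((((x.mul (ub_dB0 K)).mul (c2.cp K0_smooth)).mul (n.cp ct_smooth)).mul (c1.mul c1)).val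
  have q2 : Le (R := R) (α := α) (fun _ => 1) fun d => r2 d.S d.π d.z :=
    ((((x.mul (ub_B0 K)).mul (c2.cp (deriv_smooth K0_smooth))).mul (n.cp ct_smooth)).mul
      (c2.mul c2)).val
  have q3 : Le (R := R) (α := α) (fun _ => 1) fun d => r3 d.S d.π d.z :=
    (((x.mul (ub_B0 K)).mul (c2.cp K0_smooth)).mul (n.cp dct_smooth)).val
  have q4 : Le (R := R) (α := α) (fun _ => 1) fun d => r4 d.S d.π d.z :=
    ((ub_o0 K).mul c1).val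
  have p1 : Le (R := R) (α := α) (fun _ => 1) fun d => d.S.p1 d.z i :=
    Le.one_of_sq fun d => (co_le _ i).trans (p1_le d)
  have p2 : Le (R := R) (α := α) (fun _ => 1) fun d => d.S.p2 d.z i :=
    Le.one_of_sq fun d => (co_le _ i).trans (p2_le d)
  obtain ⟨a, a0, ha⟩ := (((q1.mul1 p1).mul1 (le_v1 K)).add ((q2.mul1 p2).mul1 (le_v2 K))).add
    (q3.mul1 (le_mm K i))
  obtain ⟨b, b0, hb⟩ := (q4.mul1 p1).mul1 (le_v1 K)
  refine ⟨a ^ 2 + b ^ 2, by positivity, fun d => ?_⟩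
  have h1 := pow_le_pow_left₀ (abs_nonneg _) (ha d) 2
  have h2 := pow_le_pow_left₀ (abs_nonneg _) (hb d) 2
  have h3 : d.om ^ 2 = d.Ph := Real.sq_sqrt (ph0 K d)
  rw [sq_abs, mul_pow a, h3] at h1
  rw [sq_abs, mul_pow b, h3] at h2
  have h4 := aa_sq d
  have h5 := ph0 K d
  rw [FF, f1, f2, f3]
  generalize aa d.S d.π G0 d.z = u at *
  generalize aa d.S d.π Gt d.z = w at *
  set A := r1 d.S d.π d.z * d.S.p1 d.z i * d.S.v1 d.v d.z +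
    r2 d.S d.π d.z * d.S.p2 d.z i * d.S.v2 d.v d.z +
    r3 d.S d.π d.z * d.S.NS d.π (mm d.S d.π d.v i) d.z with hA
  set B := r4 d.S d.π d.z * d.S.p1 d.z i * d.S.v1 d.v d.z with hB
  calc _ = (u * A + w * B) ^ 2 := by rw [hA, hB]; ring
    _ ≤ (u ^ 2 + w ^ 2) * (A ^ 2 + B ^ 2) := by nlinarith [sq_nonneg (u * B - w * A)]
    _ ≤ _ := mul_le_mul h4 (by linarith) (by positivity) (wt_nn _ _ _)

omit K in
theorem Pv_sq (d : Dt R α) : ‖d.S.Pv d.z‖ ^ 2 ≤ 12 := by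
  have h := pow_le_pow_left₀ (norm_nonneg _) (norm_sub_le (d.S.p1 d.z) (d.S.p2 d.z)) 2
  rw [Sf.Pv]
  nlinarith [p1_le d, p2_le d, sq_nonneg (‖d.S.p1 d.z‖ - ‖d.S.p2 d.z‖)]

omit K in
theorem kk_sq (d : Dt R α) : (d.S.kk d.z / d.π.ε) ^ 2 ≤ d.π.ε⁻¹ ^ 2 := by
  rw [div_eq_mul_inv, mul_pow]
  exact mul_le_of_le_one_left (sq_nonneg _)
    (pow_le_one₀ (d.S.kk_nonneg _) (d.S.kk_le d.θ1))

omit K in
theorem sgi_le (d : Dt R α) :
    sgi d.S d.π d.z ≤ 720 * d.π.ε⁻¹ ^ 2 + 960 * d.S.A2 d.z.1 := by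
  have h0 := tt0 d
  have h1 : d.S.tt d.π d.z ≤ 2 := by
    rw [Sf.tt, div_le_iff₀ d.G.rg.ε0]
    nlinarith [d.sq.2.2.2.2, d.S.kk_le d.θ1, d.S.kk_nonneg d.z, d.hit.2.2.1]
  have h2 := d.G.ok.norm_lv_le d.O d.θ1 d.c1
  have h3 := d.S.A2_nonneg d.z.1
  have h4 : ‖d.S.lv d.z‖ ^ 2 ≤ 4 * d.S.A2 d.z.1 := by nlinarith [d.c1]
  have h5 : ‖d.S.Uv d.π d.z‖ ^ 2 ≤ d.π.ε⁻¹ ^ 2 * 12 := by
    rw [Sf.Uv, norm_smul, mul_pow, Real.norm_eq_abs, sq_abs]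
    exact mul_le_mul (kk_sq d) (Pv_sq d) (sq_nonneg _) (sq_nonneg _)
  have h6 : ‖d.S.tt d.π d.z • d.S.lv d.z‖ ^ 2 ≤ 4 * (4 * d.S.A2 d.z.1) := by
    rw [norm_smul, mul_pow, Real.norm_eq_abs, sq_abs]
    exact mul_le_mul (by nlinarith) h4 (sq_nonneg _) (by norm_num)
  have h7 := pow_le_pow_left₀ (norm_nonneg _)
    (norm_add_le (d.S.Uv d.π d.z) (d.S.tt d.π d.z • d.S.lv d.z)) 2
  have h8 : ‖d.S.gt d.π d.z‖ ^ 2 ≤ 24 * d.π.ε⁻¹ ^ 2 + 32 * d.S.A2 d.z.1 := by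
    rw [Sf.gt]
    nlinarith [sq_nonneg (‖d.S.Uv d.π d.z‖ - ‖d.S.tt d.π d.z • d.S.lv d.z‖)]
  have h9 : d.S.Wt d.π d.z * G2 (d.S.tt d.π d.z) ≤ 1 * 30 :=
    mul_le_mul (Sf.Wt_le _ _ _) (G2_le h0) (G2_nonneg _) zero_le_one
  rw [sgi]
  calc _ ≤ 1 * 30 * (24 * d.π.ε⁻¹ ^ 2 + 32 * d.S.A2 d.z.1) :=
        mul_le_mul h9 h8 (sq_nonneg _) (by norm_num)
    _ = _ := by ring

theorem Mn_le (d : Dt R α) : 2 * |d.S.Wt d.π d.z * G1 (d.S.tt d.π d.z) * (d.S.kk d.z / d.π.ε) *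
    (d.S.v2 d.v d.z - d.S.v1 d.v d.z)| ≤ 36 * d.π.ε⁻¹ ^ 2 + 12 * d.Ph := by
  have h1 := ph0 K d
  refine amgm (by positivity) (by positivity) ?_
  have h2 : d.S.Wt d.π d.z ^ 2 ≤ 1 := pow_le_one₀ (Sf.Wt_nonneg _ _ _) (Sf.Wt_le _ _ _)
  have h3 : G1 (d.S.tt d.π d.z) ^ 2 ≤ 36 := by
    have := pow_le_pow_left₀ (abs_nonneg _) (abs_G1_le (tt0 d)) 2
    rw [sq_abs] at this
    linarith
  have h4 := kk_sq d
  have h5 := v21_sq K d
  rw [mul_pow, mul_pow, mul_pow]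
  calc _ ≤ 1 * 36 * d.π.ε⁻¹ ^ 2 * (12 * d.Ph) := by gcongr
    _ = _ := by ring

/-- the pointwise bound -/
theorem key (ε : ℝ) : ∃ B, 0 < B ∧ ∀ d : Dt R α, d.π.ε = ε → ∀ (ζ b o t : ℝ) (u : Fin 3 → ℝ),
    0 ≤ ζ → ζ ≤ 1 → 0 ≤ o → |b| ≤ o → (∀ i, u i ^ 2 ≤ o * 14) →
    t ^ 2 ≤ o * (d.S.v1 d.v d.z ^ 2 + (d.S.v2 d.v d.z - d.S.v1 d.v d.z) ^ 2) →
    (h1 d.S d.π d.v d.z + d.S.Wt d.π d.z * G1 (d.S.tt d.π d.z) * (d.S.kk d.z / d.π.ε) *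
      (d.S.v2 d.v d.z - d.S.v1 d.v d.z)) * ζ ^ 2 -
      ∑ i, FF d.S d.π d.v i d.z * (2 * ζ * u i) + d.S.Psi d.π d.z * (2 * ζ * (b + t)) ≤
    45 * (wt d.S d.π d.z * o) +
      B * (1 + d.S.A2 d.z.1 + d.S.A2 (yy d.z) + nn d.S d.π d.S.A2 d.z + d.Ph) := by
  obtain ⟨c, c0, hc⟩ := le_h1 (R := R) (α := α) K
  choose k k0 hk using FF_sq (R := R) (α := α) K
  have k1 := k0 0
  have k2 := k0 1
  have k3 := k0 2
  refine ⟨1000 + 800 * ε⁻¹ ^ 2 + c ^ 2 + (k 0 + k 1 + k 2), by positivity,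
    fun d hε ζ b o t u z0 z1 o0 hb hu ht => ?_⟩
  have p0 := ph0 K d
  have w0 := wt_nn d.S d.π d.z
  have z2 : ζ ^ 2 ≤ 1 := pow_le_one₀ z0 z1
  have a2 : d.σ ^ 2 = d.Xi := Real.sq_sqrt (zero_le_one.trans (d.xi K).1)
  have a3 : d.om ^ 2 = d.Ph := Real.sq_sqrt p0
  have a6 : d.Xi = sgi d.S d.π d.z +
    (1 + d.S.A2 d.z.1 + d.S.A2 (yy d.z) + nn d.S d.π d.S.A2 d.z) := rfl
  have b1 : |h1 d.S d.π d.v d.z| ≤ d.Xi + c ^ 2 * d.Ph := by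
    refine (hc d).trans ?_
    rw [← a2, ← a3]
    nlinarith [sq_nonneg (d.σ - c * d.om), sq_nonneg d.σ, sq_nonneg (c * d.om)]
  have b2 := Mn_le K d
  have b3 := sgi_le d
  have mul : ∀ a s : ℝ, 0 ≤ s → s ≤ 1 → a * s ≤ |a| := fun a s s0 s1 =>
    (mul_le_mul_of_nonneg_right (le_abs_self a) s0).trans (mul_le_of_le_one_right (abs_nonneg a) s1)
  have b4 := mul (h1 d.S d.π d.v d.z) _ (sq_nonneg ζ) z2
  have b5 := mul (d.S.Wt d.π d.z * G1 (d.S.tt d.π d.z) * (d.S.kk d.z / d.π.ε) *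
    (d.S.v2 d.v d.z - d.S.v1 d.v d.z)) _ (sq_nonneg ζ) z2
  have b6 : ∀ i, -(FF d.S d.π d.v i d.z * (2 * ζ * u i)) ≤
      14 * (wt d.S d.π d.z * o) + k i * d.Ph := fun i => by
    have e1 := amgm (a := -(FF d.S d.π d.v i d.z * u i)) (p := 14 * (wt d.S d.π d.z * o))
      (q := k i * d.Ph) (by positivity) (mul_nonneg (k0 i).le p0) (by
        rw [neg_sq, mul_pow]
        exact (mul_le_mul (hk i d) (hu i) (sq_nonneg _)
          (mul_nonneg w0 (mul_nonneg (k0 i).le p0))).trans_eq (by ring))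
    have e2 := mul (-(FF d.S d.π d.v i d.z * u i)) ζ z0 z1
    linarith
  have s0 : 0 ≤ d.S.Psi d.π d.z := mul_nonneg (Sf.Wt_nonneg _ _ _) (G0_nonneg _)
  have s1 : d.S.Psi d.π d.z ≤ 1 := mul_le_one₀ (Sf.Wt_le _ _ _) (G0_nonneg _) (G0_le (tt0 d))
  have s2 := Psi_le d.S d.π d.z
  have b7 : 2 * |t| ≤ o + 14 * d.Ph := amgm o0 (by positivity)
    (ht.trans (mul_le_mul_of_nonneg_left (by linarith [v1_sq K d, v21_sq K d]) o0))
  have b8 : 2 * ζ * (b + t) ≤ 3 * o + 14 * d.Ph := by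
    linarith [mul b ζ z0 z1, mul t ζ z0 z1]
  have b9 : d.S.Psi d.π d.z * (2 * ζ * (b + t)) ≤ 3 * (wt d.S d.π d.z * o) + 14 * d.Ph := by
    refine (mul_le_mul_of_nonneg_left b8 s0).trans ?_
    nlinarith [mul_le_mul_of_nonneg_right s2 o0, mul_le_mul_of_nonneg_right s1 p0]
  have x1 := d.S.A2_nonneg d.z.1
  have x2 := d.S.A2_nonneg (yy d.z)
  have x3 : 0 ≤ nn d.S d.π d.S.A2 d.z := Me.NS_nn K.unq d.G (Me.cg_A2 d.G.ok) d.hit d.box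
  rw [hε] at b2 b3 b5 ⊢
  rw [Fin.sum_univ_three]
  have y1 : 0 ≤ ε⁻¹ ^ 2 * (d.S.A2 d.z.1 + d.S.A2 (yy d.z) + nn d.S d.π d.S.A2 d.z + d.Ph) := by
    positivity
  have y2 : 0 ≤ c ^ 2 * (1 + d.S.A2 d.z.1 + d.S.A2 (yy d.z) + nn d.S d.π d.S.A2 d.z) := by
    positivity
  have y3 : 0 ≤ (k 0 + k 1 + k 2) *
      (1 + d.S.A2 d.z.1 + d.S.A2 (yy d.z) + nn d.S d.π d.S.A2 d.z) := by positivity
  have y4 := sq_nonneg ε⁻¹
  linarith [b6 0, b6 1, b6 2]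

end pw

section cl

variable {S : Sf} {π : Par} {v : E → ℝ} {z : Q} {Λ : ℝ} {ζ b o : Q → ℝ}

theorem off_w (h : Off S π z) : S.Psi π z = 0 ∧ S.Wt π z * G1 (S.tt π z) = 0 := by
  rcases h.cases with (h | h) | h
  · simp [Sf.Psi, Sf.Wt, h]
  · simp [Sf.Psi, G0_zero h, G1_zero h]
  · simp [Sf.Psi, Sf.Wt, h.1]

theorem sm_c (S : Sf) (ho : Continuous o) : S.Sm 0 o := fun _ _ => by
  rw [Nat.cast_zero]; exact (contDiff_zero.2 ho).contDiffAt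

theorem cl_wt (hS : S.Ok) (hπ : π.Rg) (ho : Continuous o) :
    S.Cl π 0 fun z => wt S π z * o z :=
  (Sf.cl_WtG hS hπ (G := fun t => G0 t + (t * G1 t) ^ 2)
    ((G0_cd (by omega)).add ((contDiff_id.mul (G1_cd (by omega))).pow 2))
    fun _ h => by simp [G0_zero h, G1_zero h]).mul (sm_c S ho)

variable (K : Kit) (hG : Good S π Λ) (hv : S.Spd v) (hζ : ContDiff ℝ ∞ ζ)
include K hG hv hζ

theorem cl_J (hb : Continuous b) : S.Cl π 0 (Jv S π v ζ b) := by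
  have h0 : S.Sm 0 ζ := sm_c S hζ.continuous
  have h1 : S.Sm 0 fun z => fderiv ℝ ζ z (S.VT v z) := fun z hz => by
    have a1 := s_v1 hG.ok hv hz
    have a2 := s_v2 hG.ok hv hz
    exact dn ((hζ.fderiv_right (m := ∞) (by simp)).contDiffAt.clm_apply
      ((a1.smul Gx.sm_θ).prodMk (contDiffAt_const.prodMk (a2.sub a1)))) 0
  exact (((cl_Hw K hG hv).add (((Sf.cl_WtG hG.ok hG.rg (G1_cd (by omega)) fun _ => G1_zero).mul
    fun _ hz => (dn (Gx.sm_kk hG.ok hz) 0).div_const _).mul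
    fun _ hz => dn ((s_v2 hG.ok hv hz).sub (s_v1 hG.ok hv hz)) 0)).mul
    fun z hz => (h0 z hz).pow 2).add ((Sf.cl_Psi hG.ok hG.rg (by omega)).mul
    fun z hz => (contDiffAt_const.mul (h0 z hz)).mul ((sm_c S hb z hz).add (h1 z hz)))

theorem cl_F (i : Fin 3) : S.Cl π 1 fun z => FF S π v i z * ζ z ^ 2 :=
  (cl_FF K hG hv i).mul fun _ _ => (dn hζ.contDiffAt 1).pow 2

theorem D_F (hz : z ∈ S.O) (i : Fin 3) : S.D (ee i) (fun z => FF S π v i z * ζ z ^ 2) z =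
    FF S π v i z * (2 * ζ z * S.D (ee i) ζ z) + S.D (ee i) (FF S π v i) z * ζ z ^ 2 := by
  have h1 : DifferentiableAt ℝ ζ z := hζ.differentiable (by simp) z
  have h2 : S.D (ee i) (fun z => ζ z ^ 2) z = 2 * ζ z * S.D (ee i) ζ z := by
    simp only [sq]
    rw [D_mul h1 h1]; ring
  rw [D_mul (df (s_FF K hG hv i hz)) (h1.fun_pow 2), h2]

end cl

end H2

open Hw H2 in
/-- **HW2** -/
theorem hw2 : HW2 := by
  intro R α ε
  have K := kit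
  obtain ⟨C, C0, hC⟩ := K.me
  obtain ⟨B, B0, hB⟩ := key (R := R) (α := α) K ε
  refine ⟨3 * C * B + 45, by positivity,
    fun S π Λ v χ ζ b o hG hR hα hε hv hζ hb ho hχ ζ0 o0 χ0 H0 => ?_⟩
  have lJ := cl_J K hG hv hζ hb
  have lF := cl_F K hG hv hζ
  have lW := cl_wt hG.ok hG.rg ho
  have l0 := cl_lin lJ (cl_D hG (lF 0) (ee 0)) 1
  have l1 := cl_lin l0 (cl_D hG (lF 1) (ee 1)) 1
  have l2 := cl_lin l1 (cl_D hG (lF 2) (ee 2)) 1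
  have l3 := cl_lin l2 lW 45
  have cA := Me.cg_A2 hG.ok
  have cP := cg_φ hG.ok
  have c1 : S.Cg fun x => χ x * (1 + S.A2 x + S.φ x ^ 2) := fun x hx =>
    ⟨hχ.continuousAt.mul ((continuousAt_const.add (cA x hx).1).add (cP x hx).1),
      by have := S.A2_nonneg x; have := χ0 x; positivity⟩
  have cF : S.Cg fun x => B * (χ x * (1 + S.A2 x + S.φ x ^ 2)) := fun x hx =>
    ⟨continuousAt_const.mul (c1 x hx).1, mul_nonneg B0.le (c1 x hx).2⟩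
  have cZ : S.Cg fun _ => 0 := fun _ _ => ⟨continuousAt_const, le_rfl⟩
  have H := hC S π Λ 1 0 0 0 _ _ _ _ _ _ hG one_pos le_rfl le_rfl le_rfl l3 cF cF cF cZ cZ
    (fun _ _ _ h => by simp at h) fun z hz hx h => by
      have hO := Ca.box_O hG.rg hx
      have e := h1_eq K hG hv hz hx
      rw [Fin.sum_univ_three] at e
      have w0 := mul_nonneg (wt_nn S π z) (o0 z)
      have e' : Jv S π v ζ b z - 1 * S.D (ee 0) (fun z => FF S π v 0 z * ζ z ^ 2) z -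
          1 * S.D (ee 1) (fun z => FF S π v 1 z * ζ z ^ 2) z -
          1 * S.D (ee 2) (fun z => FF S π v 2 z * ζ z ^ 2) z =
          (h1 S π v z + S.Wt π z * G1 (S.tt π z) * (S.kk z / π.ε) * (S.v2 v z - S.v1 v z)) *
            ζ z ^ 2 - ∑ i, FF S π v i z * (2 * ζ z * S.D (ee i) ζ z) +
            S.Psi π z * (2 * ζ z * (b z + fderiv ℝ ζ z (S.VT v z))) := by
        rw [D_F K hG hv hζ hO, D_F K hG hv hζ hO, D_F K hG hv hζ hO, Jv, ← e, Fin.sum_univ_three]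
        ring
      rw [e'] at h ⊢
      have hz0 : ζ z ≠ 0 := fun h0 => by
        simp only [h0, mul_zero, zero_mul, Finset.sum_const_zero, ne_eq, OfNat.ofNat_ne_zero,
          not_false_eq_true, zero_pow] at h
        linarith
      have hq : S.Sq π z := by
        by_contra hq
        have hf := off_sq hG.rg hx hq
        simp only [hf.h1 K hG hO, (off_w hf).1, (off_w hf).2, FF, hf.f, zero_mul, add_zero,
          Finset.sum_const_zero] at h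
        linarith
      refine ⟨hq, by linarith [S.cs2_nonneg z], ?_⟩
      obtain ⟨g1, g2, g3⟩ := H0 z hz hx hz0
      let d : Dt R α := ⟨S, π, Λ, v, z, hG, hR, hα, hv, hz, hx, hq⟩
      have a1 := hB d hε (ζ z) (b z) (o z) (fderiv ℝ ζ z (S.VT v z)) (fun i => S.D (ee i) ζ z)
        (ζ0 z).1 (ζ0 z).2 (o0 z) g2 (fun i => by
          refine (g3 _ _).trans (mul_le_mul_of_nonneg_left ?_ (o0 z))
          have h2 := Sf.norm_Pi_sq hO.1 hz.2.1 (ee i)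
          rw [norm_ee, ← Sf.norm_p_sq hO.1] at h2
          have h3 : ‖S.p z.1 z.2.1‖ ^ 2 ≤ 2 := p1_le d
          have h4 := inner_sq_le (S.Pv z) (ee i)
          have h5 : ‖S.Pv z‖ ^ 2 ≤ 12 := Pv_sq d
          rw [norm_ee] at h4
          linarith) ((g3 _ _).trans_eq (by
            rw [norm_smul, hz.2.1, mul_one, Real.norm_eq_abs, sq_abs]))
      have up : ∀ x, 1 ≤ χ x → 1 + S.A2 x + S.φ x ^ 2 ≤ χ x * (1 + S.A2 x + S.φ x ^ 2) :=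
        fun x h => le_mul_of_one_le_left (by have := S.A2_nonneg x; positivity) h
      have a2 := up z.1 (by simpa using g1 0 ⟨le_rfl, hz.2.2.1.le⟩)
      have a3 := up (yy z) (g1 z.2.2 ⟨hz.2.2.1.le, le_rfl⟩)
      have a5 : B * (nn S π S.A2 z + nn S π (fun x => S.φ x ^ 2) z) ≤
          nn S π (fun x => B * (χ x * (1 + S.A2 x + S.φ x ^ 2))) z := by
        obtain ⟨T, hT, hs⟩ := K.unq.ns S π Λ z hG hz hx
        have : ∀ f, nn S π f z = ∑ l ∈ T, π.cu (S.cs2 (z.1, z.2.1, l)) * f (yy (z.1, z.2.1, l)) :=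
          fun f => hs _ fun z' _ h => by rw [hG.rg.cu_zero h.le, zero_mul]
        simp only [this, Finset.mul_sum, ← Finset.sum_add_distrib]
        refine Finset.sum_le_sum fun l hl => ?_
        obtain ⟨q1, q2, -⟩ := (hT l).1 hl
        have q3 := up (yy (z.1, z.2.1, l)) (g1 l ⟨q1.le, q2.le⟩)
        have q4 := mul_nonneg B0.le (Par.cu_nonneg (π := π) (S.cs2 (z.1, z.2.1, l)))
        nlinarith [mul_le_mul_of_nonneg_left q3 q4]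
      have a7 : d.Ph = S.φ z.1 ^ 2 + S.φ (yy z) ^ 2 + nn S π (fun x => S.φ x ^ 2) z := rfl
      rw [a7] at a1
      change _ ≤ _ + _ + nn S π (fun x => B * (χ x * (1 + S.A2 x + S.φ x ^ 2))) z + _ + _ + _ + _
      dsimp only [d] at a1
      nlinarith [mul_le_mul_of_nonneg_left a2 B0.le, mul_le_mul_of_nonneg_left a3 B0.le]
  have bd := fun i => K.byd S π _ (ee i) hG.ok hG.rg (lF i)
  rw [II_lin K hG l2 lW, II_lin K hG l1 (cl_D hG (lF 2) _), II_lin K hG l0 (cl_D hG (lF 1) _),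
    II_lin K hG lJ (cl_D hG (lF 0) _), bd, bd, bd, Sf.IB_cmul, Sf.IB_zero] at H
  have p1 := Me.IB_nn hG.ok π c1
  have p2 := Sf.II_nonneg hG.ok hG.rg lW fun z _ _ => mul_nonneg (wt_nn S π z) (o0 z)
  have p3 : 0 ≤ C * (B * S.IB π fun x => χ x * (1 + S.A2 x + S.φ x ^ 2)) := by positivity
  have p4 : 0 ≤ C * B * S.II fun z => wt S π z * o z := by positivity
  nlinarith [mul_le_mul_of_nonneg_right hG.rg.α2.2 p3]

end Vale.Agent.P218M2
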