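import Vale.Agent.P218M2.Spec
import Vale.Agent.P218R.Ori
import Vale.Agent.P218R.Base

/-!
# P218M2, row LOCZ: the time is frozen away from the compact set
-/

open Metric Filter Topology Set
open scoped ContDiff
open Vale.Agent.P218M1 (E)
open Vale.Agent.P218R (ori tan_prop grad_ne_iff one_le)
open Vale.Agent.P218R.Flw (fderiv_slice)
open ContinuousLinearMap (inr)

noncomputable section

namespace Vale.Agent.P218M2

namespace Lz2

/-- a local defining function whose spatial differential survives the change of the time -/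
def P (M : ℝ → Set E) (χ : E → ℝ) (z : (ℝ × ℝ) × E) : Prop := z.2 ∈ M z.1.1 →
  ∃ u : ℝ × E → ℝ, ContDiff ℝ ∞ u ∧ (∀ᶠ p : ℝ × E in 𝓝 (z.1.1, z.2), p.2 ∈ M p.1 ↔ u p = 0) ∧
    fderiv ℝ u (z.1.1, z.2) ∘L inr ℝ ℝ E +
      (z.1.2 * fderiv ℝ u (z.1.1, z.2) (1, 0)) • fderiv ℝ χ z.2 ≠ 0

theorem ev {M : ℝ → Set E} {χ : E → ℝ} {τ₀ κ : ℝ} {x : E} (hχ : ContDiff ℝ ∞ χ) (hκ : 0 < κ)
    (hc : IsClosed {p : ℝ × E | p.1 ∈ Icc (τ₀ - κ) (τ₀ + κ) ∧ p.2 ∈ M p.1})
    (h : P M χ ((τ₀, 0), x)) : ∀ᶠ z in 𝓝 ((τ₀, 0), x), P M χ z := by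
  have c : Tendsto (fun z : (ℝ × ℝ) × E => (z.1.1, z.2)) (𝓝 ((τ₀, 0), x)) (𝓝 (τ₀, x)) :=
    Continuous.tendsto' (by fun_prop) _ _ rfl
  by_cases hx : x ∈ M τ₀
  · obtain ⟨u, u1, u2, u3⟩ := h hx
    have c1 := u1.continuous_fderiv (by simp)
    have c2 := hχ.continuous_fderiv (by simp)
    have c3 : Continuous fun z : (ℝ × ℝ) × E => fderiv ℝ u (z.1.1, z.2) ∘L inr ℝ ℝ E +
        (z.1.2 * fderiv ℝ u (z.1.1, z.2) (1, 0)) • fderiv ℝ χ z.2 := by fun_prop
    filter_upwards [c.eventually u2.eventually_nhds, c3.continuousAt.eventually_ne u3]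
      with z a b _ using ⟨u, u1, a, b⟩
  · filter_upwards [c.eventually (hc.isOpen_compl.mem_nhds fun h => hx h.2),
      (continuous_fst.tendsto _).comp c |>.eventually
        (Icc_mem_nhds (sub_lt_self τ₀ hκ) (lt_add_of_pos_right τ₀ hκ))] with z a b h
    exact absurd ⟨b, h⟩ a

end Lz2

open Lz2 in
theorem locz2 : LOCZ := by
  intro M K τ₀ κ hK hκ hc hu hr
  have e0 : ∀ (χ : E → ℝ) x, P M χ ((τ₀, 0), x) ↔ P M 0 ((τ₀, 0), x) := fun χ x => by simp [P]
  obtain ⟨L, l1, l2, l3⟩ := exists_compact_between (U := interior {x | P M 0 ((τ₀, 0), x)}) hK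
    isOpen_interior fun x hx => mem_interior_iff_mem_nhds.2
      (ev contDiff_const hκ hc fun h => by
        obtain ⟨u, u1, u2, u3⟩ := hu x hx h
        refine ⟨u, u1, u3, ?_⟩
        rw [zero_mul, zero_smul, add_zero, ← fderiv_slice (u1.differentiable (by simp) _)]
        exact grad_ne_iff.1 u2).curry_nhds.self_of_nhds
  obtain ⟨χ, x1, x2, x3⟩ := exists_contMDiffMap_one_nhds_of_subset_interior (n := ⊤)
    (modelWithCornersSelf ℝ E) hK.isClosed l2
  have sχ : ContDiff ℝ ∞ χ := χ.contMDiff.contDiff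
  obtain ⟨d, d0, hd⟩ := Metric.eventually_nhds_iff.1
    ((l1.eventually_forall_of_forall_eventually (P := fun a x => P M χ (a, x)) fun x hx =>
      ev sχ hκ hc ((e0 χ x).2 (interior_subset (l3 hx)))).and
      ((continuous_fst.tendsto (τ₀, (0 : ℝ))).eventually
        (Icc_mem_nhds (sub_lt_self τ₀ hκ) (lt_add_of_pos_right τ₀ hκ))))
  obtain ⟨τ₁, ⟨c1, W, w1, w2, w3⟩, t1⟩ := (hr.and_eventually (ball_mem_nhds τ₀ (half_pos d0))).exists
  let b : ContDiffBump τ₀ := ⟨d / 4, d / 2, by positivity, by linarith⟩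
  set s : ℝ → ℝ := fun σ => τ₀ + b σ * (σ - τ₀) - τ₁ with hs
  have ss : ContDiff ℝ ∞ s := by
    have := b.contDiff (n := ⊤)
    fun_prop
  set Ξ : ℝ × E → ℝ × E := fun q => (τ₁ + χ q.2 * s q.1, q.2) with hΞ
  have sΞ : ContDiff ℝ ∞ Ξ := by fun_prop
  have m : ∀ q, dist ((Ξ q).1, s q.1) (τ₀, 0) < d := fun q => by
    have h1 : |b q.1 * (q.1 - τ₀)| < d / 2 := by
      rcases lt_or_ge |q.1 - τ₀| (d / 2) with h | h
      · rw [abs_mul, abs_of_nonneg b.nonneg]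
        exact (mul_le_of_le_one_left (abs_nonneg _) b.le_one).trans_lt h
      · rw [b.zero_of_le_dist h, zero_mul, abs_zero]
        exact half_pos d0
    have h2 : |τ₁ - τ₀| < d / 2 := t1
    have h3 := x3 q.2
    rw [abs_lt] at h1 h2
    simp only [Prod.dist_eq, Real.dist_eq, max_lt_iff, abs_lt, hs, hΞ]
    refine ⟨⟨?_, ?_⟩, ?_, ?_⟩ <;> nlinarith [h3.1, h3.2]
  have loc : ∀ q : ℝ × E, q.2 ∈ M (Ξ q).1 → ∃ f : ℝ × E → ℝ, ContDiff ℝ ∞ f ∧
      fderiv ℝ f q ∘L inr ℝ ℝ E ≠ 0 ∧ ∀ᶠ p in 𝓝 q, p.2 ∈ M (Ξ p).1 ↔ f p = 0 := fun q hq => by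
    by_cases h : q.2 ∈ L
    · obtain ⟨u, u1, u2, u3⟩ := (hd (m q)).1 q.2 h hq
      refine ⟨_, u1.comp sΞ, ?_, (sΞ.continuous.tendsto q).eventually u2⟩
      rw [← fderiv_slice ((u1.comp sΞ).differentiable (by simp) q)]
      have := (HasFDerivAt.comp (f := fun x => Ξ (q.1, x)) q.2
        (u1.differentiable (by simp) (Ξ q)).hasFDerivAt ((((sχ.differentiable (by simp) q.2).hasFDerivAt.mul_const (s q.1)).const_add τ₁).prodMk
          (hasFDerivAt_id q.2))).fderiv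
      refine fun e => u3 (Eq.trans ?_ (this.symm.trans e))
      ext v
      have : ((s q.1 * fderiv ℝ χ q.2 v, v) : ℝ × E) =
          (0, v) + (s q.1 * fderiv ℝ χ q.2 v) • (1, 0) := by simp
      simp only [add_apply, ContinuousLinearMap.comp_apply, smul_apply,
        ContinuousLinearMap.prod_apply, ContinuousLinearMap.inr_apply, smul_eq_mul,
        ContinuousLinearMap.id_apply, this, map_add, map_smul]
      ring
    · have sW : ContDiff ℝ ∞ fun p : ℝ × E => W p.2 := w1.comp contDiff_snd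
      have e : ∀ p : ℝ × E, p.2 ∉ L → (p.2 ∈ M (Ξ p).1 ↔ W p.2 = 0) := fun p hp => by
        simp [hΞ, x2 _ hp, w2]
      refine ⟨_, sW, ?_, ((continuous_snd.tendsto q).eventually
        (l1.isClosed.isOpen_compl.mem_nhds h)).mono e⟩
      rw [← fderiv_slice (sW.differentiable (by simp) q)]
      exact grad_ne_iff.1 (w3 _ ((e q h).1 hq))
  have cl : IsClosed {q : ℝ × E | q.2 ∈ M (Ξ q).1} := by
    rw [show {q : ℝ × E | q.2 ∈ M (Ξ q).1} =
      Ξ ⁻¹' {p | p.1 ∈ Icc (τ₀ - κ) (τ₀ + κ) ∧ p.2 ∈ M p.1} from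
      Set.ext fun q => (and_iff_right (hd (m q)).2).symm]
    exact hc.preimage sΞ.continuous
  obtain ⟨w, sw, hw, rw'⟩ := ori (ℝ × E) _ cl fun q hq => by
    obtain ⟨f, f1, f2, f3⟩ := loc q hq
    exact ⟨f, f1, fun e => f2 (by rw [e, ContinuousLinearMap.zero_comp]), f3⟩
  refine ⟨d / 4, by positivity, w, sw, fun σ => (l1.union c1).of_isClosed_subset
    (isClosed_eq (by fun_prop) continuous_const) fun x hx => ?_, fun σ x hx => ?_,
    fun σ hσ x hx => ?_⟩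
  · refine or_iff_not_imp_left.2 fun h => ?_
    simpa [hΞ, x2 _ h] using (hw _).2 hx
  · have hq := (hw _).2 hx
    obtain ⟨f, f1, f2, f3⟩ := loc _ hq
    have dw := sw.differentiable (by simp) (σ, x)
    obtain ⟨c, hc⟩ := tan_prop (f1.contDiffAt.of_le one_le) (f3.self_of_nhds.1 hq)
      (fun e => f2 (by rw [e, ContinuousLinearMap.zero_comp])) dw
      (f3.mono fun p h a => (hw p).1 (h.2 a))
    rw [grad_ne_iff, fderiv_slice dw, hc, ContinuousLinearMap.smul_comp]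
    exact smul_ne_zero (fun e => rw' _ hq (by rw [hc, e, zero_smul])) f2
  · rw [← hw]
    simp [hΞ, hs, x1.self_of_nhdsSet x hx, b.one_of_mem_closedBall (show σ ∈ closedBall τ₀ (d / 4)
      from hσ.le)]

end Vale.Agent.P218M2
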