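import Vale.Agent.P218M2.Spec
import Vale.Agent.P218M1.Psit
import Vale.Agent.P218M1.Dt
import Vale.Agent.P218M1.Fs
import Vale.Agent.P218M1.Lin

/-!
# P218M2, row PSIT2: the time derivative of the functional with a cutoff
-/

open MeasureTheory Metric Filter Topology Set
open scoped ContDiff RealInnerProductSpace
open Vale.Agent.P218M1

noncomputable section

namespace Vale.Agent.P218M2

open Psit

theorem psi_diff {S : ℝ → Sf} {I : Set ℝ} {τ : ℝ} {π : Par} {z : Q} (F : Fam S I) (hπ : π.Rg)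
    (h : τ ∈ I) (h1 : (S τ).g z.1 ≠ 0) (h2 : (S τ).g (yy z) ≠ 0) (hb : ¬ (S τ).Box π z) :
    DifferentiableAt ℝ (fun q : ℝ × Q => (S q.1).Psi π q.2) (τ, z) := by
  have c1 : ContinuousAt (fun q : ℝ × Q => (S q.1).cs1 q.2) (τ, z) :=
    ((sc1 F h h1).pow 2).continuousAt
  have c2 := (sc2 F h h2).continuousAt
  have c3 : ContinuousAt (fun q : ℝ × Q => ‖q.2.1‖) (τ, z) := by fun_prop
  have c4 : ContinuousAt (fun q : ℝ × Q => q.2.2.2) (τ, z) := by fun_prop
  have : ∀ᶠ q : ℝ × Q in 𝓝 (τ, z), ¬ (S q.1).Box π q.2 := by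
    simp only [Sf.Box, not_and_or, not_le] at hb
    rcases hb with hb | hb | hb | hb | hb
    · filter_upwards [c3.eventually (lt_mem_nhds hb)] with q a b using a.not_ge b.1
    · filter_upwards [c4.eventually (gt_mem_nhds hb)] with q a b using a.not_ge b.2.1
    · filter_upwards [c4.eventually (lt_mem_nhds hb)] with q a b using a.not_ge b.2.2.1
    · filter_upwards [c1.eventually (gt_mem_nhds hb)] with q a b using a.not_ge b.2.2.2.1
    · filter_upwards [c2.eventually (gt_mem_nhds hb)] with q a b using a.not_ge b.2.2.2.2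
  exact (differentiableAt_const (0 : ℝ)).congr_of_eventuallyEq
    (this.mono fun q hq => (off' hπ hq 0).1)

theorem psit2 : PSIT2 := by
  intro S I π Λ τ ζ F h hG hζ
  have hπ := hG.rg
  have s : ∀ σ ∈ I, ∀ z ∈ (S σ).O, ContDiffAt ℝ 1 (fun q : ℝ × Q => (S q.1).Psi π q.2) (σ, z) :=
    fun σ a z hz => (sPsi fs F hπ a hz).1.mul ((G0_cd (k := 1) (by norm_num)).contDiffAt.comp _
      (sPsi fs F hπ a hz).2.1)
  refine ⟨swd F h, (dt fs (ca fs) lin' S I π (fun q => (S q.1).Psi π q.2 * ζ q ^ 2) τ F h hπ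
    (fun σ a z hz => (s σ a z hz).mul ((hζ.of_le (by simp)).contDiffAt.pow 2))
    fun σ _ z _ _ c => by rw [(off' hπ c 0).1, zero_mul]).congr_deriv ?_⟩
  refine II_congr hG.ok fun z a b c => ?_
  have d := (hζ.differentiable (by simp) (τ, z)).hasFDerivAt
  have d2 : HasFDerivAt (fun z => ζ (τ, z)) _ z := d.comp z (hasFDerivAt_prodMk_right τ z)
  obtain ⟨e1, e2⟩ : DifferentiableAt ℝ (fun q : ℝ × Q => (S q.1).Psi π q.2) (τ, z) ∧
      fderiv ℝ (fun q : ℝ × Q => (S q.1).Psi π q.2) (τ, z) (1, (S τ).VT (wd S τ) z) =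
        (S τ).Hw π (wd S τ) z + Mn (S τ) π (wd S τ) z := by
    by_cases hb : (S τ).Box π z
    · exact ⟨(s τ h z (box_O hπ hb)).differentiableAt one_ne_zero,
        derPsi fs F h hG ⟨a, b, (box_O hπ hb).2.2, c⟩ hb⟩
    · exact ⟨psi_diff F hπ h (hG.ok.reg _ a) (hG.ok.reg _ c) hb,
        by simp [offT F hπ h (hG.ok.reg _ a) (hG.ok.reg _ c) hb, off' hπ hb]⟩
  rw [Jv, d2.fderiv, ← Mn, ← e2, ContinuousLinearMap.comp_apply, ← map_add,
    show ((1 : ℝ), (0 : Q)) + ContinuousLinearMap.inr ℝ ℝ Q ((S τ).VT (wd S τ) z) =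
      (1, (S τ).VT (wd S τ) z) by simp, (e1.hasFDerivAt.fun_mul (d.pow 2)).fderiv]
  simp
  ring

end Vale.Agent.P218M2
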