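import Vale.Agent.P218M2.Spec
import Vale.Agent.P218M1.Bar

/-!
# P218M2, row SEP2: the choice of the parameters for finitely many families
-/

open MeasureTheory Metric Filter Topology Set
open scoped ContDiff RealInnerProductSpace ENNReal
open Vale.Agent.P218M1

noncomputable section

namespace Vale.Agent.P218M2

namespace Sep2

theorem ex_min {ι : Type} [Finite ι] (c : ι → ℝ) (hc : ∀ k, 0 < c k) :
    ∃ m : ℝ, 0 < m ∧ ∀ k, m ≤ c k := by
  cases isEmpty_or_nonempty ι with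
  | inl h => exact ⟨1, one_pos, fun k => h.elim k⟩
  | inr h =>
    obtain ⟨k, hk⟩ := Finite.exists_min c
    exact ⟨c k, hc k, hk⟩

end Sep2

theorem sep2 : SEP2 := by
  intro ι _ S I a b R α ε F hI hε
  choose c' c0' H' using fun k => Sp.gap (F k) (hI k) (3 * R + 2)
  obtain ⟨c, c0, hc⟩ := Sep2.ex_min c' c0'
  set η := min (1 / 10) (ε ^ 2 / (2048 * (4 / c + 1)))
  have η0 : 0 < η := by positivity
  have η1 : η ≤ 1 / 10 := min_le_left _ _
  have K : ∀ k, ∀ τ ∈ Icc (a k) (b k), ∀ z : Q, (S k τ).Hit z → ‖z.1‖ ≤ 3 * R + 2 →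
      η ^ 2 / 2 ≤ (S k τ).cs1 z → c * η / 2 ≤ z.2.2 := fun k τ hτ z h1 h2 h3 => by
    have : η / 2 ≤ |(S k τ).cc z.1 z.2.1| :=
      Real.le_sqrt_of_sq_le (by linarith [sq_nonneg η, show (S k τ).cs1 z = _ ^ 2 from rfl])
        |>.trans_eq (Real.sqrt_sq_eq_abs _)
    linarith [H' k τ hτ z h1 h2, mul_le_mul_of_nonneg_left this c0.le,
      mul_le_mul_of_nonneg_right (hc k) (abs_nonneg ((S k τ).cc z.1 z.2.1))]
  refine ⟨η, c * η / 4, η0, η1, by positivity, fun k τ hτ =>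
    ⟨fun z h1 h2 h3 _ => by linarith [K k τ hτ z h1 h2 h3], fun x θ T hx hθ hT => ?_⟩⟩
  have n := Sp.card_le (T := T) (δ := c * η / 2) (by positivity)
    (fun d hd => ⟨(hT d hd).1, (hT d hd).2.1⟩) fun d hd d' hd' l =>
      K k τ hτ (x + d • θ, θ, d' - d) ⟨(hT d hd).2.2.1, hθ, sub_pos.2 l, by
        simpa [yy, add_assoc, ← add_smul] using (hT d' hd').2.2.1⟩ ((norm_add_le _ _).trans (by
          rw [norm_smul, hθ, mul_one, Real.norm_of_nonneg (hT d hd).1.le]
          exact add_le_add hx (hT d hd).2.1)) (hT d hd).2.2.2.1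
  refine (Finset.sum_le_card_nsmul _ _ (256 * (2 * η ^ 2) ^ 3) fun d hd => ?_).trans ?_
  · exact mul_le_mul_of_nonneg_left (pow_le_pow_left₀ (sq_nonneg _) (hT d hd).2.2.2.2 3)
      (by norm_num)
  rw [nsmul_eq_mul]
  refine (mul_le_mul_of_nonneg_right n (by positivity)).trans ?_
  have e := (le_div_iff₀ (by positivity)).1 (min_le_right _ _ : η ≤ _)
  have e4 : η ^ 4 ≤ 1 := pow_le_one₀ η0.le (by linarith)
  have e5 : η ^ 5 ≤ 1 := pow_le_one₀ η0.le (by linarith)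
  rw [show (2 / (c * η / 2) + 1) * (256 * (2 * η ^ 2) ^ 3) =
    2048 * (η * (4 / c) * η ^ 4 + η * η ^ 5) by field_simp; ring]
  linarith [mul_le_of_le_one_right η0.le e5,
    mul_le_of_le_one_right (show 0 ≤ η * (4 / c) by positivity) e4]

end Vale.Agent.P218M2
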