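import Vale.Agent.P218M2.Spec
import Vale.Agent.P218M1.PsitB
import Vale.Agent.P218M1.Gx

/-!
# P218M2, row VL: a speed which is correct near the segments can be made correct everywhere
-/

open MeasureTheory Metric Filter Topology Set
open scoped ContDiff RealInnerProductSpace ENNReal Manifold
open Vale.Agent.P218M1

noncomputable section

namespace Vale.Agent.P218M2

namespace Vl

variable {S : Sf} {π : Par} {v v' : E → ℝ} {z : Q}

theorem sm_F (hS : S.Ok) {x : E} (hx : S.g x ≠ 0) :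
    ContDiffAt ℝ ∞ (fun y => -(‖S.g y‖ * S.φ y)) x := by
  have hz : S.g ((x, (0 : E), (0 : ℝ)) : Q).1 ≠ 0 := hx
  have hn := Gx.sm_n hS (a := fun z => z.1) contDiffAt_fst hz
  have hP : ContDiffAt ℝ ∞ (fun z : Q => S.P z.1) (x, 0, 0) :=
    contDiffAt_const.sub (Gx.sm_ro hn hn)
  have hg : ContDiffAt ℝ ∞ (fun z : Q => S.g z.1) (x, 0, 0) :=
    hS.sg.contDiffAt.comp _ contDiffAt_fst
  have hA : ContDiffAt ℝ ∞ (fun z : Q => S.A z.1) (x, 0, 0) :=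
    ((hg.norm ℝ hz).inv (norm_ne_zero_iff.2 hz)).neg.smul
      (hP.clm_comp ((hS.sD2.contDiffAt.comp _ contDiffAt_fst).clm_comp hP))
  have h : ContDiffAt ℝ ∞ (fun z : Q => S.φ z.1) (x, 0, 0) :=
    (Gx.sm_trc hA).add ((contDiffAt_fst.inner ℝ hn).div_const 2)
  exact ((hg.norm ℝ hz).mul h).neg.comp (f := fun y : E => ((y, 0, 0) : Q)) x (by fun_prop)

theorem v1_ev (h : v' =ᶠ[𝓝 z.1] v) : S.v1 v' =ᶠ[𝓝 z] S.v1 v := by
  filter_upwards [continuousAt_fst.eventually h] with q hq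
  simp only [Sf.v1, hq]

theorem v2_ev (h : v' =ᶠ[𝓝 (yy z)] v) : S.v2 v' =ᶠ[𝓝 z] S.v2 v := by
  filter_upwards [Psit.syy.continuous.continuousAt.eventually h] with q hq
  simp only [Sf.v2, hq]

theorem tc2 (h : v' =ᶠ[𝓝 (yy z)] v) : S.Tc2 v' z = S.Tc2 v z := by
  simp only [Sf.Tc2, Sf.D, (v2_ev h).fderiv_eq]

theorem tn (hπ : π.Rg) (h : ∀ l ∈ Icc 0 z.2.2, v' =ᶠ[𝓝 (z.1 + l • z.2.1)] v) :
    S.TN π v' z = S.TN π v z := by
  refine finsum_congr fun l => finsum_congr fun _ => ?_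
  by_cases h1 : l ≤ π.ρ / 2
  · simp only [hπ.xi_zero h1, zero_mul, mul_zero]
  by_cases h2 : z.2.2 - l ≤ π.ρ / 2
  · simp only [hπ.xi_zero h2, mul_zero]
  have := hπ.ρ0
  simp only [tc2 (z := (z.1, z.2.1, l)) (h l ⟨by linarith, by linarith⟩)]

theorem jv (hπ : π.Rg) (hd : 0 ≤ z.2.2) (ζ b : Q → ℝ)
    (h : ∀ l ∈ Icc 0 z.2.2, v' =ᶠ[𝓝 (z.1 + l • z.2.1)] v) : Jv S π v ζ b z = Jv S π v' ζ b z := by
  have h1 : v' =ᶠ[𝓝 z.1] v := by simpa using h 0 ⟨le_rfl, hd⟩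
  have h2 : v' =ᶠ[𝓝 (yy z)] v := h _ ⟨hd, le_rfl⟩
  simp only [Jv, Sf.Hw, Sf.VT, Sf.Tc1, Sf.D, (v1_ev h1).fderiv_eq, (v1_ev h1).self_of_nhds,
    (v2_ev h2).self_of_nhds, tc2 h2, tn hπ h]

end Vl

open Vl in
theorem vl : VL := by
  intro S π v χ ζ b hS hπ hv hχ hM hζ
  have c1 : IsClosed ({x | S.g x = 0} ∪ {x | 1 ≤ χ x}) :=
    (isClosed_eq hS.sg.continuous continuous_const).union (isClosed_le continuous_const hχ)
  have c2 : IsClosed ({x | S.w x = 0} ∩ {x | χ x = 0}) :=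
    (isClosed_eq hS.sm.continuous continuous_const).inter (isClosed_eq hχ continuous_const)
  obtain ⟨f, f0, f1, -⟩ := exists_contMDiffMap_zero_one_nhds_of_isClosed (n := ⊤) 𝓘(ℝ, E) c1 c2
    (Set.disjoint_left.2 fun x hx hy => hx.elim (hS.reg x hy.1) fun h => by
      have h' : 1 ≤ χ x := h
      have : χ x = 0 := hy.2
      linarith)
  have sf : ContDiff ℝ ∞ f := f.contMDiff.contDiff
  have ev {x : E} (hx : x ∈ {x | S.g x = 0} ∪ {x | 1 ≤ χ x}) :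
      (fun y => v y + f y * (-(‖S.g y‖ * S.φ y) - v y)) =ᶠ[𝓝 x] v := by
    filter_upwards [f0.filter_mono (nhds_le_nhdsSet hx)] with y hy
    simp [hy]
  refine ⟨fun y => v y + f y * (-(‖S.g y‖ * S.φ y) - v y), ⟨contDiff_iff_contDiffAt.2 fun x => ?_,
    fun x hx => ?_⟩, Psit.II_congr hS fun z h1 hθ h2 => ?_⟩
  · by_cases hx : S.g x = 0
    · exact hv.contDiffAt.congr_of_eventuallyEq (ev (.inl hx))
    · exact hv.contDiffAt.add (sf.contDiffAt.mul ((sm_F hS hx).sub hv.contDiffAt))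
  · by_cases h : χ x = 0
    · have e : f x = 1 := f1.self_of_nhdsSet x ⟨hx, h⟩
      simp [e]
    · simp [hM x hx h]
  by_cases h0 : ζ z = 0
  · simp [Jv, h0]
  by_cases hb : S.Box π z
  · have hd : 0 < z.2.2 := by linarith [hb.2.1, hπ.ρ0]
    exact jv hπ hd.le ζ b fun l hl => ev (.inr (hζ z ⟨h1, hθ, hd, h2⟩ hb h0 l hl))
  · have o (u : E → ℝ) : Jv S π u ζ b z = 0 := by
      obtain ⟨a, c, -, d⟩ := Psit.off' hπ hb u
      unfold Psit.Mn at d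
      rw [Jv, a, c, d]
      simp
    rw [o, o]

end Vale.Agent.P218M2
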