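import Vale.Agent.P218M2.Spec
import Vale.Agent.P218M1.Cut

/-!
# P218M2: the cutoffs which remove the segments through the active balls
-/

set_option linter.all false

open MeasureTheory Metric Filter Topology Set
open scoped ContDiff RealInnerProductSpace
open Vale.Agent.P218M1

noncomputable section

namespace Vale.Agent.P218M2

namespace Ze

/-- the parameter of the foot point of `c` on the line -/
def lam (c : E) (z : Q) : ℝ := ⟪c - z.1, z.2.1⟫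

/-- the squared distance from `c` to the line -/
def qq (c : E) (z : Q) : ℝ := ‖c - z.1‖ ^ 2 - lam c z ^ 2

/-- the spatial cutoff at the scale `ρ` -/
def Aa (ρ : ℝ) (c : E) (z : Q) : ℝ :=
  ct (qq c z / ρ ^ 2) * ct (-lam c z / ρ) * ct (-(z.2.2 - lam c z) / ρ)

/-- the cutoff in time -/
def Tt (r t s : ℝ) : ℝ := ct (((s - t) / r ^ 2) ^ 2 / 4)

/-- the cutoff of one cylinder -/
def aa (r t : ℝ) (c : E) (p : ℝ × Q) : ℝ := Tt r t p.1 * Aa (2 * r) c p.2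

theorem lam_smooth (c : E) : ContDiff ℝ ∞ (lam c) :=
  (contDiff_const.sub contDiff_fst).inner ℝ (contDiff_fst.comp contDiff_snd)

theorem qq_smooth (c : E) : ContDiff ℝ ∞ (qq c) :=
  ((contDiff_norm_sq ℝ).comp (contDiff_const.sub contDiff_fst)).sub ((lam_smooth c).pow 2)

theorem Aa_smooth (ρ : ℝ) (c : E) : ContDiff ℝ ∞ (Aa ρ c) :=
  ((ct_smooth.comp ((qq_smooth c).div_const _)).mul
    (ct_smooth.comp ((lam_smooth c).neg.div_const _))).mul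
    (ct_smooth.comp (((contDiff_snd.comp contDiff_snd).sub (lam_smooth c)).neg.div_const _))

theorem Tt_smooth (r t : ℝ) : ContDiff ℝ ∞ (Tt r t) :=
  ct_smooth.comp ((((contDiff_id.sub contDiff_const).div_const _).pow 2).div_const _)

theorem aa_smooth (r t : ℝ) (c : E) : ContDiff ℝ ∞ (aa r t c) :=
  ((Tt_smooth r t).comp contDiff_fst).mul ((Aa_smooth _ c).comp contDiff_snd)

theorem Aa_nonneg (ρ : ℝ) (c : E) (z : Q) : 0 ≤ Aa ρ c z :=
  mul_nonneg (mul_nonneg (ct_nonneg _) (ct_nonneg _)) (ct_nonneg _)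

theorem Aa_le (ρ : ℝ) (c : E) (z : Q) : Aa ρ c z ≤ 1 :=
  mul_le_one₀ (mul_le_one₀ (ct_le_one _) (ct_nonneg _) (ct_le_one _)) (ct_nonneg _) (ct_le_one _)

theorem Tt_nonneg (r t s : ℝ) : 0 ≤ Tt r t s := ct_nonneg _
theorem Tt_le (r t s : ℝ) : Tt r t s ≤ 1 := ct_le_one _

theorem aa_nonneg (r t : ℝ) (c : E) (p : ℝ × Q) : 0 ≤ aa r t c p :=
  mul_nonneg (Tt_nonneg _ _ _) (Aa_nonneg _ _ _)

theorem aa_le (r t : ℝ) (c : E) (p : ℝ × Q) : aa r t c p ≤ 1 :=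
  mul_le_one₀ (Tt_le _ _ _) (Aa_nonneg _ _ _) (Aa_le _ _ _)

theorem Tt_one {r t s : ℝ} (hr : 0 < r) (h : |s - t| ≤ 2 * r ^ 2) : Tt r t s = 1 := by
  have h2 : 0 < r ^ 2 := pow_pos hr 2
  have h3 : |(s - t) / r ^ 2| ≤ 2 := by
    rw [abs_div, abs_of_pos h2, div_le_iff₀ h2]; exact h
  have h4 := abs_le.1 h3
  exact ct_one (by nlinarith [h4.1, h4.2])

theorem Tt_zero {r t s : ℝ} (hr : 0 < r) (h : 3 * r ^ 2 ≤ |s - t|) : Tt r t s = 0 := by
  have h2 : 0 < r ^ 2 := pow_pos hr 2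
  have h3 : 3 ≤ |(s - t) / r ^ 2| := by
    rw [abs_div, abs_of_pos h2, le_div_iff₀ h2]; exact h
  have h4 := sq_abs ((s - t) / r ^ 2)
  exact ct_zero (by nlinarith)

theorem Aa_ne {ρ : ℝ} (hρ : 0 < ρ) {c : E} {z : Q} (h : Aa ρ c z ≠ 0) :
    qq c z < 2 * ρ ^ 2 ∧ -lam c z < 2 * ρ ∧ -(z.2.2 - lam c z) < 2 * ρ :=
  ⟨(div_lt_iff₀ (pow_pos hρ 2)).1 (lt_of_ct_ne (left_ne_zero_of_mul (left_ne_zero_of_mul h))),
    (div_lt_iff₀ hρ).1 (lt_of_ct_ne (right_ne_zero_of_mul (left_ne_zero_of_mul h))),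
    (div_lt_iff₀ hρ).1 (lt_of_ct_ne (right_ne_zero_of_mul h))⟩

theorem Aa_one {ρ : ℝ} (hρ : 0 < ρ) {c : E} {z : Q} (h1 : qq c z ≤ ρ ^ 2) (h2 : -lam c z ≤ ρ)
    (h3 : -(z.2.2 - lam c z) ≤ ρ) : Aa ρ c z = 1 := by
  rw [Aa, ct_one ((div_le_one (pow_pos hρ 2)).2 h1), ct_one ((div_le_one hρ).2 h2),
    ct_one ((div_le_one hρ).2 h3)]
  norm_num

theorem Aa_big {r : ℝ} (hr : 0 < r) {c : E} {z : Q} (h : Aa (2 * r) c z ≠ 0) :
    Aa (4 * r) c z = 1 := by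
  obtain ⟨h1, h2, h3⟩ := Aa_ne (by linarith) h
  exact Aa_one (by linarith) (by nlinarith [pow_pos hr 2]) (by linarith) (by linarith)

theorem dist_sq (c : E) {z : Q} (hz : ‖z.2.1‖ = 1) (l : ℝ) :
    ‖z.1 + l • z.2.1 - c‖ ^ 2 = qq c z + (lam c z - l) ^ 2 := by
  have e : z.1 + l • z.2.1 - c = -((c - z.1) - l • z.2.1) := by abel
  rw [e, norm_neg, norm_sub_sq_real, inner_smul_right, norm_smul, hz, qq, lam]
  simp only [Real.norm_eq_abs, mul_one, sq_abs]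
  ring

theorem line {X : Type*} [NormedAddCommGroup X] [NormedSpace ℝ X] {f : X → ℝ}
    (hf : Differentiable ℝ f) {p v : X} {y : ℝ} (h : HasDerivAt (fun s : ℝ => f (p + s • v)) y 0) :
    fderiv ℝ f p v = y := by
  have h1 : HasDerivAt (fun s : ℝ => p + s • v) v 0 := by
    simpa using ((hasDerivAt_id (0 : ℝ)).smul_const v).const_add p
  have h2 : HasFDerivAt f (fderiv ℝ f p) (p + (0 : ℝ) • v) := by
    simpa using (hf p).hasFDerivAt
  exact (h2.comp_hasDerivAt (0 : ℝ) h1).unique h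

theorem fz {X : Type*} [NormedAddCommGroup X] [NormedSpace ℝ X] {n : ℕ} (a : Fin n → X → ℝ)
    (ha : ∀ i, Differentiable ℝ (a i)) (p v : X) :
    fderiv ℝ (fun q => ct (1 + ∑ i, a i q ^ 2)) p v =
      deriv ct (1 + ∑ i, a i p ^ 2) * ∑ i, 2 * a i p * fderiv ℝ (a i) p v := by
  have h1 : HasFDerivAt (fun q => 1 + ∑ i, a i q ^ 2)
      (∑ i, (2 * a i p) • fderiv ℝ (a i) p) p := by
    refine HasFDerivAt.const_add 1 (HasFDerivAt.fun_sum fun i _ => ?_)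
    refine ((ha i p).hasFDerivAt.pow 2).congr_fderiv ?_
    simp
  have h2 : fderiv ℝ (fun q => ct (1 + ∑ i, a i q ^ 2)) p = _ :=
    ((hasDerivAt_ct _).comp_hasFDerivAt p h1).fderiv
  rw [h2]
  simp

/-- the derivative of the spatial cutoff -/
def DA (ρ : ℝ) (c : E) (z : Q) (e : E) (s : ℝ) : ℝ :=
  deriv ct (qq c z / ρ ^ 2) * (-2 * ⟪c - z.1 - lam c z • z.2.1, e⟫ / ρ ^ 2) *
      ct (-lam c z / ρ) * ct (-(z.2.2 - lam c z) / ρ) +
    deriv ct (-lam c z / ρ) * (⟪z.2.1, e⟫ / ρ) * ct (qq c z / ρ ^ 2) *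
      ct (-(z.2.2 - lam c z) / ρ) +
    deriv ct (-(z.2.2 - lam c z) / ρ) * (-(s + ⟪z.2.1, e⟫) / ρ) * ct (qq c z / ρ ^ 2) *
      ct (-lam c z / ρ)

theorem der_lam (c : E) (z : Q) (e : E) (s : ℝ) :
    HasDerivAt (fun h : ℝ => lam c (z + h • (e, 0, s))) (-⟪z.2.1, e⟫) 0 := by
  have : (fun h : ℝ => lam c (z + h • (e, 0, s))) = fun h => lam c z - h * ⟪z.2.1, e⟫ := by
    funext h
    have e1 : c - (z.1 + h • e) = (c - z.1) - h • e := by abel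
    simp only [lam, Prod.fst_add, Prod.snd_add, Prod.smul_mk, smul_zero, add_zero, e1,
      inner_sub_left (c - z.1), inner_smul_left, real_inner_comm e]
    simp
  rw [this]
  simpa using ((hasDerivAt_id (0 : ℝ)).mul_const ⟪z.2.1, e⟫).const_sub (lam c z)

theorem der_qq (c : E) (z : Q) (e : E) (s : ℝ) :
    HasDerivAt (fun h : ℝ => qq c (z + h • (e, 0, s)))
      (-2 * ⟪c - z.1 - lam c z • z.2.1, e⟫) 0 := by
  have h1 : HasDerivAt (fun h : ℝ => ‖c - (z + h • (e, (0 : E), s)).1‖ ^ 2)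
      (-2 * ⟪c - z.1, e⟫) 0 := by
    have : (fun h : ℝ => ‖c - (z + h • (e, (0 : E), s)).1‖ ^ 2) =
        fun h => ‖c - z.1‖ ^ 2 - h * (2 * ⟪c - z.1, e⟫) + h ^ 2 * ‖e‖ ^ 2 := by
      funext h
      have e1 : c - (z.1 + h • e) = (c - z.1) - h • e := by abel
      simp only [Prod.fst_add, Prod.smul_mk, e1]
      rw [norm_sub_sq_real, inner_smul_right, norm_smul, mul_pow, Real.norm_eq_abs, sq_abs]
      ring
    rw [this]
    have := (((hasDerivAt_id (0 : ℝ)).mul_const (2 * ⟪c - z.1, e⟫)).const_sub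
      (‖c - z.1‖ ^ 2)).add ((hasDerivAt_pow 2 (0 : ℝ)).mul_const (‖e‖ ^ 2))
    refine HasDerivAt.congr_deriv this ?_
    simp
  refine HasDerivAt.congr_deriv (h1.sub ((der_lam c z e s).pow 2)) ?_
  rw [inner_sub_left (c - z.1), inner_smul_left]
  simp
  ring

theorem der_Aa (ρ : ℝ) (c : E) (z : Q) (e : E) (s : ℝ) :
    HasDerivAt (fun h : ℝ => Aa ρ c (z + h • (e, 0, s))) (DA ρ c z e s) 0 := by
  have hd : HasDerivAt (fun h : ℝ => (z + h • (e, (0 : E), s)).2.2) s 0 := by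
    simpa using ((hasDerivAt_id (0 : ℝ)).mul_const s).const_add z.2.2
  have h1 := (hasDerivAt_ct _).comp (0 : ℝ) ((der_qq c z e s).div_const (ρ ^ 2))
  have h2 := (hasDerivAt_ct _).comp (0 : ℝ) ((der_lam c z e s).neg.div_const ρ)
  have h3 := (hasDerivAt_ct _).comp (0 : ℝ) ((hd.sub (der_lam c z e s)).neg.div_const ρ)
  refine HasDerivAt.congr_deriv ((h1.mul h2).mul h3) ?_
  simp only [DA, Function.comp_apply, Pi.mul_apply, Pi.neg_apply, Pi.sub_apply, zero_smul,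
    add_zero]
  ring

theorem der_Tt (r t σ τ : ℝ) : HasDerivAt (fun h : ℝ => Tt r t (σ + h * τ))
    (deriv ct (((σ - t) / r ^ 2) ^ 2 / 4) * ((σ - t) / r ^ 2 / (2 * r ^ 2) * τ)) 0 := by
  have h0 : HasDerivAt (fun h : ℝ => σ + h * τ - t) τ 0 := by
    simpa using (((hasDerivAt_id (0 : ℝ)).mul_const τ).const_add σ).sub_const t
  have h1 := (hasDerivAt_ct _).comp (0 : ℝ) (((h0.div_const (r ^ 2)).pow 2).div_const 4)
  refine HasDerivAt.congr_deriv h1 ?_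
  simp
  left
  ring

theorem fd_aa (r t : ℝ) (c : E) (σ : ℝ) (z : Q) (τ : ℝ) (e : E) (s : ℝ) :
    fderiv ℝ (aa r t c) (σ, z) (τ, e, 0, s) =
      deriv ct (((σ - t) / r ^ 2) ^ 2 / 4) * ((σ - t) / r ^ 2 / (2 * r ^ 2) * τ) *
        Aa (2 * r) c z + Tt r t σ * DA (2 * r) c z e s := by
  refine line ((aa_smooth r t c).differentiable (by simp)) ?_
  refine HasDerivAt.congr_deriv ((der_Tt r t σ τ).mul (der_Aa (2 * r) c z e s)) ?_
  simp

theorem DA_zero (ρ : ℝ) (c : E) (z : Q) : DA ρ c z 0 0 = 0 := by simp [DA]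

theorem sq3 {a b c m x y w : ℝ} (ha : 0 ≤ a ∧ a ≤ 1) (hb : 0 ≤ b ∧ b ≤ 1) (hx : x ^ 2 ≤ m)
    (hw : w ^ 2 ≤ y) (hc : c = x * w * a * b) : c ^ 2 ≤ m * y := by
  have h1 : a ^ 2 ≤ 1 := pow_le_one₀ ha.1 ha.2
  have h2 : b ^ 2 ≤ 1 := pow_le_one₀ hb.1 hb.2
  have hm : 0 ≤ m := (sq_nonneg _).trans hx
  have hy : 0 ≤ y := (sq_nonneg _).trans hw
  calc c ^ 2 = x ^ 2 * w ^ 2 * a ^ 2 * b ^ 2 := by rw [hc]; ring
    _ ≤ m * y * 1 * 1 := by gcongr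
    _ = _ := by ring

theorem DA_sq {ρ : ℝ} (hρ : 0 < ρ) {c : E} {z : Q} (hz : ‖z.2.1‖ = 1) (h : qq c z < 2 * ρ ^ 2)
    (e : E) (s : ℝ) : DA ρ c z e s ^ 2 ≤ 33 * Cc ^ 2 / ρ ^ 2 * (‖e‖ ^ 2 + s ^ 2) := by
  have hρ2 : 0 < ρ ^ 2 := pow_pos hρ 2
  have hn : ‖c - z.1 - lam c z • z.2.1‖ ^ 2 = qq c z := by
    have := dist_sq c hz (lam c z)
    rw [sub_self, ← norm_neg] at this
    have e1 : -(z.1 + lam c z • z.2.1 - c) = c - z.1 - lam c z • z.2.1 := by abel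
    rw [e1] at this
    simpa using this
  have hB : ⟪z.2.1, e⟫ ^ 2 ≤ ‖e‖ ^ 2 := by simpa [hz] using inner_sq_le z.2.1 e
  have hP : ⟪c - z.1 - lam c z • z.2.1, e⟫ ^ 2 ≤ 2 * ρ ^ 2 * ‖e‖ ^ 2 := by
    refine (inner_sq_le _ _).trans ?_
    rw [hn]
    gcongr
  have c01 : ∀ x, 0 ≤ ct x ∧ ct x ≤ 1 := fun x => ⟨ct_nonneg x, ct_le_one x⟩
  have w1 : (-2 * ⟪c - z.1 - lam c z • z.2.1, e⟫ / ρ ^ 2) ^ 2 ≤ 8 * ‖e‖ ^ 2 / ρ ^ 2 := by
    calc _ = 4 * ⟪c - z.1 - lam c z • z.2.1, e⟫ ^ 2 / (ρ ^ 2) ^ 2 := by ring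
      _ ≤ 4 * (2 * ρ ^ 2 * ‖e‖ ^ 2) / (ρ ^ 2) ^ 2 := by gcongr
      _ = _ := by field_simp; ring
  have w2 : (⟪z.2.1, e⟫ / ρ) ^ 2 ≤ ‖e‖ ^ 2 / ρ ^ 2 := by
    rw [div_pow]; gcongr
  have w3 : (-(s + ⟪z.2.1, e⟫) / ρ) ^ 2 ≤ (2 * s ^ 2 + 2 * ‖e‖ ^ 2) / ρ ^ 2 := by
    rw [div_pow]
    gcongr
    nlinarith [sq_nonneg (s - ⟪z.2.1, e⟫)]
  have t1 := sq3 (c01 (-lam c z / ρ)) (c01 (-(z.2.2 - lam c z) / ρ))
    (dct_sq_le (qq c z / ρ ^ 2)) w1 rfl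
  have t2 := sq3 (c01 (qq c z / ρ ^ 2)) (c01 (-(z.2.2 - lam c z) / ρ))
    (dct_sq_le (-lam c z / ρ)) w2 rfl
  have t3 := sq3 (c01 (qq c z / ρ ^ 2)) (c01 (-lam c z / ρ))
    (dct_sq_le (-(z.2.2 - lam c z) / ρ)) w3 rfl
  have key : ∀ x y w : ℝ, (x + y + w) ^ 2 ≤ 3 * (x ^ 2 + y ^ 2 + w ^ 2) := fun x y w => by
    nlinarith [sq_nonneg (x - y), sq_nonneg (x - w), sq_nonneg (y - w)]
  have hs : 0 ≤ Cc ^ 2 * s ^ 2 / ρ ^ 2 := by positivity
  calc DA ρ c z e s ^ 2 ≤ _ := key _ _ _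
    _ ≤ 3 * (Cc ^ 2 * (8 * ‖e‖ ^ 2 / ρ ^ 2) + Cc ^ 2 * (‖e‖ ^ 2 / ρ ^ 2) +
        Cc ^ 2 * ((2 * s ^ 2 + 2 * ‖e‖ ^ 2) / ρ ^ 2)) := by
        exact mul_le_mul_of_nonneg_left (add_le_add (add_le_add t1 t2) t3) (by norm_num)
    _ = 33 * Cc ^ 2 / ρ ^ 2 * (‖e‖ ^ 2 + s ^ 2) - 27 * (Cc ^ 2 * s ^ 2 / ρ ^ 2) := by ring
    _ ≤ _ := by linarith

theorem act_of {r t : ℝ} (hr : 0 < r) {c : E} {σ : ℝ} {z : Q} (h : aa r t c (σ, z) ≠ 0) :
    |σ - t| ≤ 3 * r ^ 2 ∧ Aa (4 * r) c z = 1 ∧ qq c z < 2 * (2 * r) ^ 2 :=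
  ⟨(not_le.1 fun h1 => left_ne_zero_of_mul h (Tt_zero hr h1)).le,
    Aa_big hr (right_ne_zero_of_mul h), (Aa_ne (by linarith) (right_ne_zero_of_mul h)).1⟩

theorem term_t {r t : ℝ} (hr : 0 < r) (c : E) (σ : ℝ) (z : Q) :
    |2 * aa r t c (σ, z) * fderiv ℝ (aa r t c) (σ, z) (1, 0)| ≤
      3 * Cc * if |σ - t| ≤ 3 * r ^ 2 then Aa (4 * r) c z / r ^ 2 else 0 := by
  have hC := Cc_pos
  have h2 : 0 < r ^ 2 := pow_pos hr 2
  by_cases h : aa r t c (σ, z) = 0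
  · rw [h, mul_zero, zero_mul, abs_zero]
    have := Aa_nonneg (4 * r) c z
    split_ifs <;> positivity
  obtain ⟨h1, h3, -⟩ := act_of hr h
  have e : fderiv ℝ (aa r t c) (σ, z) (1, 0) = _ := fd_aa r t c σ z 1 0 0
  rw [e, if_pos h1, h3, DA_zero, mul_zero, add_zero, mul_one]
  have h4 : |(σ - t) / r ^ 2| ≤ 3 := by
    rw [abs_div, abs_of_pos h2, div_le_iff₀ h2]; exact h1
  rw [abs_mul, abs_mul, abs_mul, abs_mul, abs_div _ (2 * r ^ 2), abs_of_nonneg (aa_nonneg _ _ _ _),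
    abs_of_nonneg (Aa_nonneg _ _ _), abs_of_pos (by positivity : 0 < 2 * r ^ 2), abs_two]
  have h5 := aa_le r t c (σ, z)
  have h6 := Aa_le (2 * r) c z
  have h7 := Aa_nonneg (2 * r) c z
  calc _ ≤ 2 * 1 * (Cc * (3 / (2 * r ^ 2)) * 1) := by
        gcongr
        exact abs_dct_le _
    _ = _ := by field_simp

theorem term_x {r t : ℝ} (hr : 0 < r) (c : E) (σ : ℝ) {z : Q} (hz : ‖z.2.1‖ = 1) (e : E) (s : ℝ) :
    (if aa r t c (σ, z) = 0 then 0 else 2 * fderiv ℝ (aa r t c) (σ, z) (0, e, 0, s)) ^ 2 ≤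
      33 * Cc ^ 2 * (‖e‖ ^ 2 + s ^ 2) *
        if |σ - t| ≤ 3 * r ^ 2 then Aa (4 * r) c z / r ^ 2 else 0 := by
  have h2 : 0 < r ^ 2 := pow_pos hr 2
  by_cases h : aa r t c (σ, z) = 0
  · rw [if_pos h, zero_pow two_ne_zero]
    have := Aa_nonneg (4 * r) c z
    split_ifs <;> positivity
  obtain ⟨h1, h3, h4⟩ := act_of hr h
  rw [if_neg h, if_pos h1, h3, fd_aa, mul_zero, mul_zero, zero_mul, zero_add]
  have h5 := DA_sq (by linarith) hz h4 e s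
  have h6 : Tt r t σ ^ 2 ≤ 1 := pow_le_one₀ (Tt_nonneg _ _ _) (Tt_le _ _ _)
  calc _ = 4 * (Tt r t σ ^ 2 * DA (2 * r) c z e s ^ 2) := by ring
    _ ≤ 4 * (1 * (33 * Cc ^ 2 / (2 * r) ^ 2 * (‖e‖ ^ 2 + s ^ 2))) := by gcongr
    _ = _ := by field_simp; ring

end Ze

open Ze in
theorem zeta : ZETA := by
  have hC := Cc_pos
  have hC1 := one_le_Cc
  refine ⟨33 * Cc ^ 4, by positivity, fun C hr => ?_⟩
  have hd : ∀ i, Differentiable ℝ (aa (C.r i) (C.t i) (C.c i)) := fun i =>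
    (aa_smooth _ _ _).differentiable (by simp)
  have hom : ∀ σ z, 0 ≤ C.om (fun i => Aa (4 * C.r i) (C.c i)) σ z := fun σ z =>
    Finset.sum_nonneg fun i _ => by
      have := Aa_nonneg (4 * C.r i) (C.c i) z
      split_ifs <;> positivity
  refine ⟨fun q => ct (1 + ∑ i, aa (C.r i) (C.t i) (C.c i) q ^ 2),
    fun i => Aa (4 * C.r i) (C.c i), ?_, fun _ => ct_nonneg _, fun _ => ct_le_one _, ?_, ?_,
    fun i => (Aa_smooth _ _).continuous, fun i z => Aa_nonneg _ _ _, fun i z => Aa_le _ _ _,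
    ?_, ?_, ?_⟩
  · exact ct_smooth.comp (contDiff_const.add (ContDiff.sum fun i _ => (aa_smooth _ _ _).pow 2))
  · intro σ h z
    refine ct_one ?_
    rw [Finset.sum_eq_zero fun i _ => ?_, add_zero]
    rw [aa, Tt_zero (hr i) (h i), zero_mul, zero_pow two_ne_zero]
  · intro σ z hz h i hi l hl
    by_contra hlt
    have hri := hr i
    have h1 : ‖z.1 + l • z.2.1 - C.c i‖ ^ 2 < (2 * C.r i) ^ 2 :=
      pow_lt_pow_left₀ (not_le.1 hlt) (norm_nonneg _) two_ne_zero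
    rw [dist_sq _ hz] at h1
    have h0 : 0 ≤ qq (C.c i) z := by
      have := dist_sq (C.c i) hz (lam (C.c i) z)
      rw [sub_self, zero_pow two_ne_zero, add_zero] at this
      rw [← this]; positivity
    have h2 : |lam (C.c i) z - l| ≤ 2 * C.r i :=
      abs_le.2 (abs_le_of_sq_le_sq' (by linarith) (by linarith))
    have h3 := abs_le.1 h2
    have h4 : aa (C.r i) (C.t i) (C.c i) (σ, z) = 1 := by
      rw [aa, Tt_one hri hi, Aa_one (by linarith) (by linarith [sq_nonneg (lam (C.c i) z - l)])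
        (by linarith [hl.1]) (by linarith [hl.2]), one_mul]
    refine h (ct_zero ?_)
    have := Finset.single_le_sum (f := fun j => aa (C.r j) (C.t j) (C.c j) (σ, z) ^ 2)
      (fun j _ => sq_nonneg _) (Finset.mem_univ i)
    simp only [h4] at this
    linarith
  · intro i z hz hd0 h
    have hri := hr i
    obtain ⟨h1, h2, h3⟩ := Aa_ne (by linarith) h
    refine ⟨max 0 (min (lam (C.c i) z) z.2.2), ⟨le_max_left _ _, max_le hd0 (min_le_right _ _)⟩,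
      ?_⟩
    refine (abs_le_of_sq_le_sq' ?_ (by linarith)).2
    rw [dist_sq _ hz]
    have h4 : |lam (C.c i) z - max 0 (min (lam (C.c i) z) z.2.2)| ≤ 8 * C.r i := by
      rw [abs_le]
      rcases le_total (lam (C.c i) z) z.2.2 with h5 | h5
      · rw [min_eq_left h5]
        rcases le_total 0 (lam (C.c i) z) with h6 | h6
        · rw [max_eq_right h6]; constructor <;> linarith
        · rw [max_eq_left h6]; constructor <;> linarith
      · rw [min_eq_right h5, max_eq_right hd0]; constructor <;> linarith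
    have h5 := sq_le_sq' (abs_le.1 h4).1 (abs_le.1 h4).2
    nlinarith [pow_pos hri 2]
  · intro σ z hz
    rw [fz _ hd, abs_mul]
    have h1 := (Finset.abs_sum_le_sum_abs _ _).trans
      (Finset.sum_le_sum (s := Finset.univ) fun i _ => term_t (t := C.t i) (hr i) (C.c i) σ z)
    rw [← Finset.mul_sum] at h1
    have h2 : Cc * (3 * Cc) ≤ 33 * Cc ^ 4 := by
      have : Cc ^ 2 ≤ Cc ^ 4 := pow_le_pow_right₀ hC1 (by norm_num)
      nlinarith [pow_pos hC 2]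
    calc _ ≤ Cc * (3 * Cc * C.om (fun i => Aa (4 * C.r i) (C.c i)) σ z) :=
          mul_le_mul (abs_dct_le _) h1 (abs_nonneg _) hC.le
      _ = Cc * (3 * Cc) * C.om (fun i => Aa (4 * C.r i) (C.c i)) σ z := by ring
      _ ≤ _ := mul_le_mul_of_nonneg_right h2 (hom σ z)
  · intro σ z e s hz
    rw [fz _ hd]
    have hz0 := hom σ z
    by_cases h : deriv ct (1 + ∑ i, aa (C.r i) (C.t i) (C.c i) (σ, z) ^ 2) = 0
    · rw [h, zero_mul, zero_pow two_ne_zero]; positivity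
    have h1 : ∑ i, aa (C.r i) (C.t i) (C.c i) (σ, z) ^ 2 ≤ 1 := by linarith [(dct_ne h).2]
    have h2 := Finset.sum_le_sum (s := Finset.univ) fun i _ =>
      term_x (t := C.t i) (hr i) (C.c i) σ hz e s
    rw [← Finset.mul_sum] at h2
    have h3 := Finset.sum_mul_sq_le_sq_mul_sq Finset.univ
      (fun i => aa (C.r i) (C.t i) (C.c i) (σ, z))
      (fun i => if aa (C.r i) (C.t i) (C.c i) (σ, z) = 0 then 0 else
        2 * fderiv ℝ (aa (C.r i) (C.t i) (C.c i)) (σ, z) (0, e, 0, s))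
    have h4 : ∑ i, 2 * aa (C.r i) (C.t i) (C.c i) (σ, z) *
        fderiv ℝ (aa (C.r i) (C.t i) (C.c i)) (σ, z) (0, e, 0, s) =
        ∑ i, aa (C.r i) (C.t i) (C.c i) (σ, z) *
          (if aa (C.r i) (C.t i) (C.c i) (σ, z) = 0 then 0 else
            2 * fderiv ℝ (aa (C.r i) (C.t i) (C.c i)) (σ, z) (0, e, 0, s)) := by
      refine Finset.sum_congr rfl fun i _ => ?_
      split_ifs with h5
      · rw [h5]; simp
      · ring
    rw [h4, mul_pow]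
    have h5 := h3.trans (mul_le_mul h1 h2 (Finset.sum_nonneg fun i _ => sq_nonneg _) zero_le_one)
    calc _ ≤ Cc ^ 2 * (1 * (33 * Cc ^ 2 * (‖e‖ ^ 2 + s ^ 2) *
          C.om (fun i => Aa (4 * C.r i) (C.c i)) σ z)) :=
          mul_le_mul (dct_sq_le _) h5 (sq_nonneg _) (sq_nonneg _)
      _ = _ := by ring

end Vale.Agent.P218M2
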