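import Vale.Agent.P218M1.All
import Vale.Agent.P218M2.Arc
import Vale.Agent.P218M2.Bad
import Vale.Agent.P218M2.Brz
import Vale.Agent.P218M2.Cgi
import Vale.Agent.P218M2.Cgp
import Vale.Agent.P218M2.Cnt
import Vale.Agent.P218M2.Dp2
import Vale.Agent.P218M2.Hw2
import Vale.Agent.P218M2.Locz2
import Vale.Agent.P218M2.Psit2
import Vale.Agent.P218M2.Sep2
import Vale.Agent.P218M2.Vl
import Vale.Agent.P218M2.Zeta
import Vale.Agent.P218Z.Ind
import Vale.Agent.P218Z.Top

/-!
# P218M2: the output of the block, without hypotheses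
-/

namespace Vale.Agent.P218M2

open P218M1

/-- **DP2** -/
theorem dp2' : DP2 := dp2 kit main' psit' dich' low' (up kit) bar zeta psit2 (cgi cgp) sep2
  (bad vl hw2 cnt cgp)

/-- **DPZ** -/
theorem dpz' : P218Z.DPZ := dpz P218Z.top P218Z.ind locz2 arc dp2'

end Vale.Agent.P218M2
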