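import Vale.Agent.P218M1.Spec
import Vale.Agent.P218R.Stm

/-!
# P218M2: the crossing estimate for flows with a small singular set; definitions and rows

See notes/P218/Allt.md.
-/

open MeasureTheory Metric Filter Topology Set
open scoped ContDiff RealInnerProductSpace ENNReal
open Vale.Agent.P218M1

noncomputable section

namespace Vale.Agent.P218M2

/-- two surfaces agree in `U` -/
structure Ag (S T : Sf) (U : Set E) : Prop where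
  z : ∀ x ∈ U, S.w x = 0 ↔ T.w x = 0
  m : S.μ.restrict U = T.μ.restrict U

/-- the segment of the configuration lies in `U` -/
def Seg (z : Q) (U : Set E) : Prop := ∀ l ∈ Icc 0 z.2.2, z.1 + l • z.2.1 ∈ U

/-- a finite family of parabolic cylinders -/
structure Cv where
  n : ℕ
  c : Fin n → E
  r : Fin n → ℝ
  t : Fin n → ℝ

namespace Cv

variable (C : Cv)

/-- the ball of radius `ρ` without the closed balls which are active at the time `τ` -/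
def U (ρ τ : ℝ) : Set E := {x | ‖x‖ < ρ ∧ ∀ i, |τ - C.t i| ≤ C.r i ^ 2 → C.r i < ‖x - C.c i‖}

/-- the sum of the weights of the cylinders which are active at the time `σ` -/
def om (o : Fin C.n → Q → ℝ) (σ : ℝ) (z : Q) : ℝ :=
  ∑ i, if |σ - C.t i| ≤ 3 * C.r i ^ 2 then o i z / C.r i ^ 2 else 0

/-- the number of the active cylinders -/
def act (σ : ℝ) : ℝ := ∑ i, if |σ - C.t i| ≤ 3 * C.r i ^ 2 then 1 else 0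

end Cv

/-- the singular set is small, and away from it the flow is part of a smooth family -/
def ZF (S : ℝ → Sf) (I : Set ℝ) (a b ρ : ℝ) : Prop := ∀ δ : ℝ, 0 < δ → ∃ C : Cv,
  (∀ i, 0 < C.r i) ∧ ∑ i, C.r i ^ 2 ≤ δ ∧
  (∀ i, 4 * C.r i ^ 2 < |a - C.t i| ∧ 4 * C.r i ^ 2 < |b - C.t i|) ∧
  (∀ τ ∈ Icc a b, (∀ i, C.r i ^ 2 < |τ - C.t i|) → τ ∈ I) ∧
  ∀ τ₀ ∈ Icc a b, ∃ (I' : Set ℝ) (T : ℝ → Sf), τ₀ ∈ I' ∧ Fam T I' ∧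
    ∀ σ ∈ I', (∃ Λ', (T σ).AR Λ') ∧ Ag (S σ) (T σ) (C.U ρ τ₀)

/-- **DP2**: the main theorem of the block; `I` is the set of the regular times -/
def DP2 : Prop := ∀ Λ G κ m₀ R₀ : ℝ, 0 < κ → 0 < m₀ → 0 < R₀ →
  ∃ R' m' D₀ ε₀ : ℝ, ∃ J : ℕ, 0 < R' ∧ 0 < m' ∧ 0 < D₀ ∧ 0 < ε₀ ∧
    ∀ (S : ℝ → Sf) (I : Set ℝ) (a b ε : ℝ) (h : ℝ → ℝ), RFlow S I → a ≤ b → a ∈ I → b ∈ I →
      volume (Icc a b \ I) = 0 → ZF S I a b R' →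
      (∀ τ ∈ Icc a b, τ ∈ I → (S τ).AR Λ ∧ (S τ).GBc G) → 0 < ε → ε ≤ ε₀ →
      IntegrableOn h (Icc a b) →
      (∀ τ ∈ Icc a b, τ ∈ I → ∫ x in ball 0 R', (S τ).φ x ^ 2 ∂(S τ).μ ≤ h τ) →
      ∫ τ in a..b, h τ ≤ D₀ →
      (S a).μ.real {x | ‖x‖ < R' ∧ (S a).w x = 0 ∧ (S a).Pair ε x} ≤ m' →
      ∫ x in ball 0 R', (S b).φ x ^ 2 ∂(S b).μ ≤ 1 →
      ∃ j ≤ J, ¬ Thick (S b) κ m₀ R₀ (ε / 10 / 2 ^ j)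

/-- the cutoff which removes the segments through the active balls -/
structure Zt (K : ℝ) (C : Cv) (ζ : ℝ × Q → ℝ) (o : Fin C.n → Q → ℝ) : Prop where
  sm : ContDiff ℝ ∞ ζ
  z0 : ∀ q, 0 ≤ ζ q
  z1 : ∀ q, ζ q ≤ 1
  one : ∀ σ, (∀ i, 3 * C.r i ^ 2 ≤ |σ - C.t i|) → ∀ z, ζ (σ, z) = 1
  kill : ∀ σ (z : Q), ‖z.2.1‖ = 1 → ζ (σ, z) ≠ 0 → ∀ i, |σ - C.t i| ≤ 2 * C.r i ^ 2 →
    ∀ l ∈ Icc 0 z.2.2, 2 * C.r i ≤ ‖z.1 + l • z.2.1 - C.c i‖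
  co : ∀ i, Continuous (o i)
  o0 : ∀ i z, 0 ≤ o i z
  o1 : ∀ i z, o i z ≤ 1
  oz : ∀ i (z : Q), ‖z.2.1‖ = 1 → 0 ≤ z.2.2 → o i z ≠ 0 →
    ∃ l ∈ Icc 0 z.2.2, ‖z.1 + l • z.2.1 - C.c i‖ ≤ 10 * C.r i
  dt : ∀ σ (z : Q), ‖z.2.1‖ = 1 → |fderiv ℝ ζ (σ, z) (1, 0)| ≤ K * C.om o σ z
  dx : ∀ σ (z : Q) (e : E) (s : ℝ), ‖z.2.1‖ = 1 →
    fderiv ℝ ζ (σ, z) (0, e, 0, s) ^ 2 ≤ K * C.om o σ z * (‖e‖ ^ 2 + s ^ 2)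

/-- the time derivative of `Psi * ζ ^ 2`; `b` is the time derivative of `ζ` -/
def Jv (S : Sf) (π : Par) (v : E → ℝ) (ζ b : Q → ℝ) (z : Q) : ℝ :=
  (S.Hw π v z + S.Wt π z * G1 (S.tt π z) * (S.kk z / π.ε) * (S.v2 v z - S.v1 v z)) * ζ z ^ 2 +
    S.Psi π z * (2 * ζ z * (b z + fderiv ℝ ζ z (S.VT v z)))

/-- the weight of the terms with derivatives of the cutoff; it is at most `37` -/
def wt (S : Sf) (π : Par) (z : Q) : ℝ :=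
  S.Wt π z * (G0 (S.tt π z) + (S.tt π z * G1 (S.tt π z)) ^ 2)

/-- **ZETA**: the cutoffs exist -/
def ZETA : Prop := ∃ K : ℝ, 0 < K ∧ ∀ C : Cv, (∀ i, 0 < C.r i) → ∃ ζ o, Zt K C ζ o

/-- **PSIT2**: the time derivative of the functional with a cutoff -/
def PSIT2 : Prop := ∀ (S : ℝ → Sf) (I : Set ℝ) (π : Par) (Λ τ : ℝ) (ζ : ℝ × Q → ℝ), Fam S I →
  τ ∈ I → Good (S τ) π Λ → ContDiff ℝ ∞ ζ → ContDiff ℝ ∞ (wd S τ) ∧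
    HasDerivAt (fun σ => (S σ).II fun z => (S σ).Psi π z * ζ (σ, z) ^ 2)
      ((S τ).II (Jv (S τ) π (wd S τ) (fun z => ζ (τ, z)) fun z => fderiv ℝ ζ (τ, z) (1, 0))) τ

/-- **VL**: a speed which is correct near the segments can be made correct everywhere -/
def VL : Prop := ∀ (S : Sf) (π : Par) (v χ : E → ℝ) (ζ b : Q → ℝ), S.Ok → π.Rg →
  ContDiff ℝ ∞ v → Continuous χ → (∀ x, S.w x = 0 → χ x ≠ 0 → v x = -(‖S.g x‖ * S.φ x)) →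
  (∀ z, S.Hit z → S.Box π z → ζ z ≠ 0 → Seg z {x | 1 ≤ χ x}) →
  ∃ v', S.Spd v' ∧ S.II (Jv S π v ζ b) = S.II (Jv S π v' ζ b)

/-- **HW2**: the crude bound for the time derivative -/
def HW2 : Prop := ∀ R α ε : ℝ, ∃ C : ℝ, 0 < C ∧ ∀ (S : Sf) (π : Par) (Λ : ℝ) (v χ : E → ℝ)
  (ζ b o : Q → ℝ), Good S π Λ → π.R = R → π.α = α → π.ε = ε → S.Spd v → ContDiff ℝ ∞ ζ →
  Continuous b → Continuous o → Continuous χ → (∀ z, 0 ≤ ζ z ∧ ζ z ≤ 1) → (∀ z, 0 ≤ o z) →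
  (∀ x, 0 ≤ χ x) →
  (∀ z, S.Hit z → S.Box π z → ζ z ≠ 0 → Seg z {x | 1 ≤ χ x} ∧ |b z| ≤ o z ∧
    ∀ (e : E) (s : ℝ), fderiv ℝ ζ z (e, 0, s) ^ 2 ≤ o z * (‖e‖ ^ 2 + s ^ 2)) →
  S.II (Jv S π v ζ b) ≤ C * (S.IB π (fun x => χ x * (1 + S.A2 x + S.φ x ^ 2)) +
    S.II fun z => wt S π z * o z)

/-- **CNT**: few proper pairs have a segment which meets a given ball -/
def CNT : Prop := ∃ C : ℝ, 0 < C ∧ ∀ (S : Sf) (π : Par) (Λ r : ℝ) (h : Q → ℝ) (χ : E → ℝ) (c : E),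
  Good S π Λ → 0 < r → S.Cl π 0 h → Continuous χ → (∀ x, 0 ≤ χ x) →
  (∀ z, S.Hit z → S.Box π z → 0 < h z → S.Sq π z ∧ h z ≤ 1 ∧ h z ≤ χ z.1 ∧
    ∃ l ∈ Icc 0 z.2.2, ‖z.1 + l • z.2.1 - c‖ ≤ r) →
  S.II h ≤ C * (r ^ 2 + ∫ x in ball c (2 * r), χ x ∂S.μ)

/-- **CGP**: the geometric quantities depend on the zero set only -/
structure CGP : Prop where
  pt : ∀ (S T : Sf) (x : E), S.Ok → T.Ok → (∀ᶠ y in 𝓝 x, S.w y = 0 ↔ T.w y = 0) → S.w x = 0 →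
    ∃ s : ℝ, (s = 1 ∨ s = -1) ∧ T.n x = s • S.n x ∧ T.A x = s • S.A x
  eq : ∀ (S T : ℝ → Sf) (I I' : Set ℝ) (τ : ℝ) (x : E), RFlow S I → Fam T I' → τ ∈ I → τ ∈ I' →
    (∀ᶠ p : ℝ × E in 𝓝 (τ, x), (S p.1).w p.2 = 0 ↔ (T p.1).w p.2 = 0) → (T τ).w x = 0 →
    wd T τ x = -(‖(T τ).g x‖ * (T τ).φ x)

/-- **CGI**: the functional with a cutoff depends on the surface near the segments only -/
def CGI : Prop := ∀ (S T : Sf) (U : Set E) (π : Par) (ζ : Q → ℝ), S.Ok → T.Ok → IsOpen U →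
  Ag S T U → π.Rg →
  (∀ z : Q, ‖z.2.1‖ = 1 → ‖z.1‖ ≤ 3 * π.R → 0 < z.2.2 → z.2.2 ≤ 2 → ζ z ≠ 0 → Seg z U) →
  (S.II fun z => S.Psi π z * ζ z) = T.II fun z => T.Psi π z * ζ z

/-- **SEP2**: the choice of `η` and `ρ` for finitely many families -/
def SEP2 : Prop := ∀ (ι : Type) [Finite ι] (S : ι → ℝ → Sf) (I : ι → Set ℝ) (a b : ι → ℝ)
  (R α ε : ℝ), (∀ k, Fam (S k) (I k)) → (∀ k, Icc (a k) (b k) ⊆ I k) → 0 < ε →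
  ∃ η ρ : ℝ, 0 < η ∧ η ≤ 1 / 10 ∧ 0 < ρ ∧
    ∀ k, ∀ τ ∈ Icc (a k) (b k), Sep (S k τ) ⟨R, α, ε, η, ρ⟩

/-- **BAD**: the time derivative at a regular time at which cylinders are active -/
def BAD : Prop := ∀ R α ε K : ℝ, ∃ C₁ : ℝ, 0 < C₁ ∧ ∀ (S T : ℝ → Sf) (I I' : Set ℝ) (π : Par)
  (Λ Λ' ρ τ τ₀ : ℝ) (C : Cv) (ζ : ℝ × Q → ℝ) (o : Fin C.n → Q → ℝ), RFlow S I → Fam T I' →
  τ ∈ I → τ ∈ I' → Good (T τ) π Λ' → π.R = R → π.α = α → π.ε = ε → (S τ).AR Λ →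
  3 * R + 3 ≤ ρ → (∀ i, 0 < C.r i) → (∀ i, |τ - τ₀| ≤ C.r i ^ 2) → Zt K C ζ o →
  (∀ σ ∈ I', Ag (S σ) (T σ) (C.U ρ τ₀)) →
  (T τ).II (Jv (T τ) π (wd T τ) (fun z => ζ (τ, z)) fun z => fderiv ℝ ζ (τ, z) (1, 0)) ≤
    C₁ * ((S τ).AA π + (S τ).PP π + (1 + Λ) * C.act τ)

/-! ### the bridge -/

/-- **LOCZ**: near a time `τ₀` and a compact set of regular points a moving set is part of a
smooth family of closed surfaces -/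
def LOCZ : Prop := ∀ (M : ℝ → Set E) (K : Set E) (τ₀ κ : ℝ), IsCompact K → 0 < κ →
  IsClosed {p : ℝ × E | p.1 ∈ Icc (τ₀ - κ) (τ₀ + κ) ∧ p.2 ∈ M p.1} →
  (∀ x ∈ K, x ∈ M τ₀ → ∃ u : ℝ × E → ℝ, ContDiff ℝ ∞ u ∧
    gradient (fun y => u (τ₀, y)) x ≠ 0 ∧ ∀ᶠ p : ℝ × E in 𝓝 (τ₀, x), p.2 ∈ M p.1 ↔ u p = 0) →
  (∃ᶠ τ in 𝓝 τ₀, IsCompact (M τ) ∧ ∃ W : E → ℝ, ContDiff ℝ ∞ W ∧ (∀ x, W x = 0 ↔ x ∈ M τ) ∧
    ∀ x, W x = 0 → gradient W x ≠ 0) →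
  ∃ δ : ℝ, 0 < δ ∧ ∃ w : ℝ × E → ℝ, ContDiff ℝ ∞ w ∧
    (∀ σ, IsCompact {x | w (σ, x) = 0}) ∧
    (∀ σ x, w (σ, x) = 0 → gradient (fun y => w (σ, y)) x ≠ 0) ∧
    ∀ σ, |σ - τ₀| < δ → ∀ x ∈ K, w (σ, x) = 0 ↔ x ∈ M σ

/-- **ARC**: a closed surface has bounded area ratios -/
def ARC : Prop := ∀ S : P218R.Srf, S.Ok → IsCompact S.G → ∃ Λ, P218R.AR Λ S.μ

end Vale.Agent.P218M2
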