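import Vale.Agent.P218M1.Br
import Vale.Agent.P218E.Clo2
import Vale.Agent.P218Z.Pre
import Vale.Agent.P218M2.Spec

/-!
# P218M2: the bridge; a flow on the set of the regular times
-/

open MeasureTheory Metric Filter Topology Set
open scoped ContDiff RealInnerProductSpace ENNReal
open Vale.Agent.P218R (Srf Flw low' div' fv' rsc rsl_ok sc_grad sc_H)
open Vale.Agent.P218M1 Vale.Agent.P218M1.Br Vale.Agent.P218Z

noncomputable section

namespace Vale.Agent.P218M2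

namespace Bz

theorem comp {U : Set ℝ} (hU : IsOpen U) {a b : ℝ} (h : U ⊆ Ioo a b) : ∃ c d : ℝ → ℝ, ∀ t ∈ U,
    a ≤ c t ∧ d t ≤ b ∧ t ∈ Ioo (c t) (d t) ∧ ∀ s ∈ Ioo (c t) (d t), s ∈ U ∧ c s = c t ∧ d s = d t := by
  refine ⟨fun t => sSup (Iic t ∩ Uᶜ), fun t => sInf (Ici t ∩ Uᶜ), fun t ht => ?_⟩
  have ma : a ∈ Iic t ∩ Uᶜ := ⟨(h ht).1.le, fun e => (h e).1.false⟩
  have mb : b ∈ Ici t ∩ Uᶜ := ⟨(h ht).2.le, fun e => (h e).2.false⟩
  have b1 : BddAbove (Iic t ∩ Uᶜ) := bddAbove_Iic.mono inter_subset_left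
  have b2 : BddBelow (Ici t ∩ Uᶜ) := bddBelow_Ici.mono inter_subset_left
  have c1 := (isClosed_Iic.inter hU.isClosed_compl).csSup_mem ⟨a, ma⟩ b1
  have c2 := (isClosed_Ici.inter hU.isClosed_compl).csInf_mem ⟨b, mb⟩ b2
  have k : ∀ r, r ∉ U → r ≤ sSup (Iic t ∩ Uᶜ) ∨ sInf (Ici t ∩ Uᶜ) ≤ r := fun r hr =>
    (le_total r t).imp (fun e => le_csSup b1 ⟨e, hr⟩) fun e => csInf_le b2 ⟨e, hr⟩
  have l1 : sSup (Iic t ∩ Uᶜ) < t := lt_of_le_of_ne c1.1 fun e => c1.2 (e.symm ▸ ht)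
  have l2 : t < sInf (Ici t ∩ Uᶜ) := lt_of_le_of_ne c2.1 fun e => c2.2 (e ▸ ht)
  refine ⟨le_csSup b1 ma, csInf_le b2 mb, ⟨l1, l2⟩, fun s hs => ⟨by_contra fun e =>
    (k s e).elim hs.1.not_ge hs.2.not_ge, congrArg sSup ?_, congrArg sInf ?_⟩⟩
  · exact Set.ext fun r => and_congr_left fun hr => (k r hr).elim
      (fun e => iff_of_true (e.trans hs.1.le) (e.trans l1.le))
      fun e => iff_of_false (hs.2.trans_le e).not_ge (l2.trans_le e).not_ge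
  · exact Set.ext fun r => and_congr_left fun hr => (k r hr).elim
      (fun e => iff_of_false (e.trans_lt hs.1).not_ge (e.trans_lt l1).not_ge)
      fun e => iff_of_true (hs.2.le.trans e) (l2.le.trans e)

theorem ok_congr {F W : Flw} {c d : ℝ} (h : W.Ok c d)
    (e : ∀ t ∈ Ioo c d, ∀ x, F.u (t, x) = W.u (t, x) ∧ F.n (t, x) = W.n (t, x)) : F.Ok c d := by
  have s : ∀ t ∈ Ioo c d, F.sl t = W.sl t := fun t ht => by
    simp only [Flw.sl, fun x => (e t ht x).1, fun x => (e t ht x).2]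
  refine ⟨h.su.congr fun p hp => (e _ hp.1 _).1, h.sn.congr fun p hp => (e _ hp.1 _).2,
    fun t ht x hx => s t ht ▸ h.reg t ht x ((e t ht x).1 ▸ hx), fun t ht x hx => ?_,
    fun t ht x hx => ?_⟩
  · filter_upwards [h.nrm t ht x ((e t ht x).1 ▸ hx), Flw.mem_dom ht x] with p h1 h2
    rw [s _ h2.1, ← h1]
    exact (e _ h2.1 _).2
  · rw [s t ht, ← h.eq t ht x ((e t ht x).1 ▸ hx)]
    exact EventuallyEq.deriv_eq (mem_of_superset (Ioo_mem_nhds ht.1 ht.2) fun r hr => (e r hr x).1)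

/-- slices which form a smooth flow near every regular time -/
theorem ex_flow (top : TOP) {F : Flw} {a b Λ G : ℝ} (h : Zc F a b Λ G) : ∃ W : Flw,
    (∀ t, (W.sl t).G = (F.sl t).G) ∧ ∀ t ∈ Ioo a b, RegT (trk F) t →
      ∃ c d, t ∈ Ioo c d ∧ W.OkA c d Λ := by
  classical
  obtain ⟨-, -, -, op, sm, -⟩ := top.2.1 (trk F) a b h.cpt
  obtain ⟨c, d, hc⟩ := comp op (a := a) (b := b) fun t ht => ht.1
  have : Inhabited Flw := ⟨F⟩
  have ex : ∀ p q, (∃ t, (t ∈ Ioo a b ∧ RegT (trk F) t) ∧ c t = p ∧ d t = q) → ∃ W : Flw,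
      W.Ok p q ∧ ∀ t ∈ Ioo p q, (W.sl t).G = trk F t := by
    rintro _ _ ⟨t, ht, rfl, rfl⟩
    obtain ⟨h1, h2, h3, h4⟩ := hc t ht
    exact P218E.cfl2 (sm _ _ h1 h2 fun s hs => (h4 s hs).1.2) (h3.1.trans h3.2)
  choose! V v1 v2 using ex
  let W : Flw := ⟨fun p => if p.1 ∈ Ioo a b ∧ RegT (trk F) p.1 then (V (c p.1) (d p.1)).u p
    else F.u p, fun p => (V (c p.1) (d p.1)).n p⟩
  have g : ∀ t, (W.sl t).G = (F.sl t).G := fun t => by
    by_cases ht : t ∈ Ioo a b ∧ RegT (trk F) t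
    · refine Eq.trans ?_ (v2 _ _ ⟨t, ht, rfl, rfl⟩ t (hc t ht).2.2.1)
      simp only [W, Flw.sl, Srf.G, if_pos ht]
    · simp only [W, Flw.sl, Srf.G, if_neg ht]
  refine ⟨W, g, fun t h1 h2 => ?_⟩
  obtain ⟨h3, h4, h5, h6⟩ := hc t ⟨h1, h2⟩
  refine ⟨c t, d t, h5, ok_congr (v1 _ _ ⟨t, ⟨h1, h2⟩, rfl, rfl⟩) fun s hs x => ?_, fun s hs => ?_⟩
  · obtain ⟨a1, a2, a3⟩ := h6 s hs
    have a4 : s ∈ Ioo a b ∧ RegT (trk F) s := a1
    simp only [W, if_pos a4, a2, a3, and_self]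
  · rw [Flw.μ, Srf.μ, g]
    exact h.ar s ⟨h3.trans_lt hs.1, hs.2.trans_le h4⟩

variable {F : Flw} {a b t₀ : ℝ}

theorem adm {σ : ℝ} (h : t₀ - Real.exp (-σ) ∈ Ioo a b) :
    a < t₀ - Real.exp (-2 * (σ / 2)) ∧ t₀ - Real.exp (-2 * (σ / 2)) < b := by
  rwa [show -2 * (σ / 2) = -σ by ring]

theorem rflow (h : F.Ok a b) (x₀ : E) :
    RFlow (fun σ => toSf (F.rsl x₀ t₀ (σ / 2))) {σ | t₀ - Real.exp (-σ) ∈ Ioo a b} := by
  refine ⟨⟨isOpen_Ioo.preimage (f := fun σ => t₀ - Real.exp (-σ)) (by fun_prop), fun σ hσ =>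
    ok (rsl_ok rsc h (adm hσ).1 (adm hσ).2), ?_⟩, fun σ hσ x hx => ?_⟩
  · have c : ContDiff ℝ ∞ fun p : ℝ × E =>
        (t₀ - Real.exp (-p.1), x₀ + Real.exp (-p.1 / 2) • p.2) := by fun_prop
    exact (h.su.comp c.contDiffOn fun p hp => ⟨hp.1, trivial⟩).congr fun p _ => w_eq F _ _ _ _
  · have hS := rsl_ok (x₀ := x₀) rsc h (adm hσ).1 (adm hσ).2
    have hx' : F.u (t₀ - Real.exp (-σ), x₀ + Real.exp (-σ / 2) • x) = 0 := w_eq F x₀ t₀ σ x ▸ hx
    set p : ℝ × E := (t₀ - Real.exp (-σ), x₀ + Real.exp (-σ / 2) • x) with hp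
    have d0 : DifferentiableAt ℝ F.u p :=
      (h.su.contDiffAt (Flw.mem_dom hσ _)).differentiableAt (by simp)
    have d1 : HasDerivAt (fun s : ℝ => (t₀ - Real.exp (-s), x₀ + Real.exp (-s / 2) • x))
        (Real.exp (-σ), (Real.exp (-σ / 2) * (-1 / 2)) • x) σ := by
      refine HasDerivAt.prodMk ?_ ((((hasDerivAt_neg σ).div_const 2).exp.smul_const x).const_add _)
      simpa using (hasDerivAt_neg σ).exp.const_sub t₀
    have d2 := (d0.hasFDerivAt.comp_hasDerivAt σ d1).deriv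
    have e1 := h.eq _ hσ _ hx'
    rw [(Flw.deriv_slice d0).deriv] at e1
    have e2 := (h.sl hσ).fderiv_w hx' x
    rw [show fderiv ℝ (F.sl _).w _ = _ from Flw.fderiv_slice d0] at e2
    have e3 : (Real.exp (-σ), (Real.exp (-σ / 2) * (-1 / 2)) • x) = Real.exp (-σ) • ((1 : ℝ), (0 : E)) +
        (Real.exp (-σ / 2) * (-1 / 2)) • ((0 : ℝ), x) := by simp
    have e4 : Real.exp (-σ) = Real.exp (-σ / 2) * Real.exp (-σ / 2) := by
      rw [← Real.exp_add]; ring_nf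
    have e5 : (Real.exp (σ / 2))⁻¹ = Real.exp (-σ / 2) := by rw [← Real.exp_neg, neg_div]
    rw [φ_eq hS hx, wd]
    simp only [toSf, w_eq]
    rw [show deriv (fun s => F.u (t₀ - Real.exp (-s), x₀ + Real.exp (-s / 2) • x)) σ = _ from d2,
      e3, map_add, map_smul, map_smul, e1, show fderiv ℝ F.u p (0, x) = _ from e2, Sf.g, Srf.φ,
      P218R.Hu.rsl_eq, show -2 * (σ / 2) = -σ by ring, sc_grad, sc_H, e5, norm_smul,
      Real.norm_of_nonneg (Real.exp_pos _).le, real_inner_comm]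
    simp only [Srf.sc, e5, smul_eq_mul]
    rw [e4]
    ring

theorem rflow_loc {S : ℝ → Sf} {I : Set ℝ} (hI : IsOpen I)
    (h : ∀ σ ∈ I, ∃ J, σ ∈ J ∧ RFlow S J) : RFlow S I := by
  refine ⟨⟨hI, fun σ hσ => ?_, fun p hp => ?_⟩, fun σ hσ => ?_⟩
  · obtain ⟨J, h1, h2⟩ := h σ hσ
    exact h2.ok σ h1
  · obtain ⟨J, h1, h2⟩ := h p.1 hp.1
    exact (h2.sm.contDiffAt ((h2.op.prod isOpen_univ).mem_nhds ⟨h1, trivial⟩)).contDiffWithinAt
  · obtain ⟨J, h1, h2⟩ := h σ hσ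
    exact h2.eq σ h1

theorem meas {Λ : ℝ} {J : Set ℝ} (hJ : MeasurableSet J) (x₀ : E)
    (h : ∀ τ ∈ J, ∃ c d, t₀ - Real.exp (-2 * τ) ∈ Ioo c d ∧ F.OkA c d Λ) (R : ℝ) :
    AEMeasurable (fun τ => ∫ x in ball 0 R, (F.rsl x₀ t₀ τ).φ x ^ 2 ∂(F.rsl x₀ t₀ τ).μ)
      (volume.restrict J) := by
  have hB := P218R.brk div' low'
  have hur := P218R.hur hB (P218R.cnt hB low') fv' low' rsc
  let ψ : ℕ → E → ℝ := fun k x => max 0 (min 1 (k * (R - ‖x‖)))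
  have c1 : ∀ k, Continuous (ψ k) := fun k => by fun_prop
  have c2 : ∀ k, ∀ x ∉ ball (0 : E) R, ψ k x = 0 := fun k x hx => max_eq_left (min_le_of_right_le
    (mul_nonpos_of_nonneg_of_nonpos k.cast_nonneg (by simpa using hx)))
  have c3 : ∀ k x, 0 ≤ ψ k x ∧ ψ k x ≤ 1 := fun k x =>
    ⟨le_max_left _ _, max_le zero_le_one (min_le_left _ _)⟩
  refine aemeasurable_of_tendsto_metrizable_ae' (f := fun k τ =>
    ∫ x, ψ k x * (F.rsl x₀ t₀ τ).φ x ^ 2 ∂(F.rsl x₀ t₀ τ).μ)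
    (fun k => ContinuousOn.aemeasurable (fun τ hτ => ?_) hJ)
    ((ae_restrict_mem hJ).mono fun τ hτ => ?_)
  · obtain ⟨c, d, m, hF⟩ := h τ hτ
    obtain ⟨e, e0, he⟩ := Metric.isOpen_iff.1
      (isOpen_Ioo.preimage (f := fun τ => t₀ - Real.exp (-2 * τ)) (by fun_prop)) τ m
    have k1 : ∀ s, |s| < e → t₀ - Real.exp (-2 * (τ + s)) ∈ Ioo c d := fun s hs =>
      he (by simpa using hs)
    exact ((hur F c d Λ t₀ (τ + -(e / 2)) (τ + e / 2) x₀ (ψ k) hF (by linarith)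
      (k1 _ (by rw [abs_neg, abs_of_pos] <;> linarith)).1
      (k1 _ (by rw [abs_of_pos] <;> linarith)).2 (c1 k) (HasCompactSupport.intro
        (isCompact_closedBall 0 R) fun x hx => c2 k x fun e => hx (ball_subset_closedBall e))
          (c3 k)).1.continuousAt (Icc_mem_nhds (by linarith) (by linarith))).continuousWithinAt
  obtain ⟨c, d, m, hF⟩ := h τ hτ
  have hS := rsl_ok (x₀ := x₀) (τ := τ) rsc hF.toOk m.1 m.2
  have cφ := hS.sφ.continuous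
  rw [← integral_indicator measurableSet_ball]
  refine tendsto_integral_of_dominated_convergence _ (fun k => by fun_prop)
    ((integrable_indicator_iff measurableSet_ball).2 (intOn hS (cφ.pow 2) R))
    (fun k => Eventually.of_forall fun x => ?_) (Eventually.of_forall fun x => ?_)
  · by_cases hx : x ∈ ball (0 : E) R
    · rw [indicator_of_mem hx, Real.norm_of_nonneg (mul_nonneg (c3 k x).1 (sq_nonneg _))]
      exact mul_le_of_le_one_left (sq_nonneg _) (c3 k x).2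
    · simp [c2 k x hx, hx]
  · by_cases hx : x ∈ ball (0 : E) R
    · rw [indicator_of_mem hx]
      have : 0 < R - ‖x‖ := by simpa using hx
      refine tendsto_const_nhds.congr' ?_
      filter_upwards [(tendsto_natCast_atTop_atTop.atTop_mul_const this).eventually_ge_atTop 1]
        with k hk
      simp only [ψ, min_eq_left hk, max_eq_right zero_le_one, one_mul]
    · simp [c2 _ x hx, hx]

/-- from a cover to a family of cylinders with centres in the set -/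
theorem cover {ι : Type} (T : Finset ι) (r : ι → ℝ) (Z : Set (ℝ × E)) (P : ι → ℝ × E → Prop)
    (h0 : ∀ q ∈ T, 0 < r q) (h1 : ∀ p ∈ Z, ∃ q ∈ T, P q p)
    (h2 : ∀ q ∈ T, ∀ p ∈ Z, ∀ p' ∈ Z, P q p → P q p' → |p.1 - p'.1| ≤ r q ^ 2 ∧ ‖p.2 - p'.2‖ < r q) :
    ∃ C : Cv, (∀ i, 0 < C.r i) ∧ ∑ i, C.r i ^ 2 ≤ ∑ q ∈ T, r q ^ 2 ∧ (∀ i, (C.t i, C.c i) ∈ Z) ∧
      ∀ p ∈ Z, ∃ i, |p.1 - C.t i| ≤ C.r i ^ 2 ∧ ‖p.2 - C.c i‖ < C.r i := by
  classical
  let T' := T.filter fun q => ∃ p ∈ Z, P q p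
  have m : ∀ q : T', q.1 ∈ T ∧ ∃ p ∈ Z, P q p := fun q => Finset.mem_filter.1 q.2
  choose m1 z z1 z2 using m
  let e := T'.equivFin.symm
  refine ⟨⟨T'.card, fun i => (z (e i)).2, fun i => r (e i), fun i => (z (e i)).1⟩,
    fun i => h0 _ (m1 _), ?_, fun i => z1 _, fun p hp => ?_⟩
  · refine (e.sum_comp fun q => r q ^ 2).trans_le ?_
    rw [Finset.sum_coe_sort T' fun q => r q ^ 2]
    exact Finset.sum_le_sum_of_subset_of_nonneg (Finset.filter_subset _ _) fun _ _ _ => sq_nonneg _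
  · obtain ⟨q, hq, h⟩ := h1 p hp
    refine ⟨e.symm ⟨q, Finset.mem_filter.2 ⟨hq, p, hp, h⟩⟩, ?_⟩
    simp only [Equiv.apply_symm_apply]
    exact h2 q hq p hp _ (z1 _) h (z2 ⟨q, _⟩)

theorem exp_lip {σ σ' B : ℝ} (h : σ ≤ B) (h' : σ' ≤ B) :
    |σ - σ'| ≤ Real.exp B * |Real.exp (-σ) - Real.exp (-σ')| := by
  wlog l : σ' ≤ σ generalizing σ σ'
  · rw [abs_sub_comm, abs_sub_comm (Real.exp _)]
    exact this h' h (le_of_not_ge l)
  have e : Real.exp (-σ') = Real.exp (-σ) * Real.exp (σ - σ') := by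
    rw [← Real.exp_add]; ring_nf
  have e1 : 1 ≤ Real.exp B * Real.exp (-σ) := by
    rw [← Real.exp_add]; exact Real.one_le_exp (by linarith)
  have e2 := Real.add_one_le_exp (σ - σ')
  rw [abs_of_nonneg (sub_nonneg.2 l), abs_sub_comm, abs_of_nonneg
    (sub_nonneg.2 (Real.exp_le_exp.2 (by linarith))), e]
  nlinarith

/-- the cylinders in the rescaled coordinates -/
theorem near {σ σ' B D r : ℝ} {x x' : E} (h : σ ≤ B) (h' : σ' ≤ B) (hD : ‖x'‖ ≤ D) (hr : 0 < r)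
    (r1 : r ≤ 1) (r2 : Real.exp B * r ^ 2 ≤ 1)
    (ht : |Real.exp (-σ) - Real.exp (-σ')| ≤ 2 * r ^ 2)
    (hx : ‖Real.exp (-σ / 2) • x - Real.exp (-σ' / 2) • x'‖ < 2 * r) :
    |σ - σ'| ≤ ((2 * Real.exp (B / 2) + 2 * Real.exp B * D) * r) ^ 2 ∧
      ‖x - x'‖ < (2 * Real.exp (B / 2) + 2 * Real.exp B * D) * r := by
  have D0 := (norm_nonneg _).trans hD
  have b0 := Real.exp_pos B
  have b1 := Real.exp_pos (B / 2)
  have b2 : Real.exp (B / 2) ^ 2 = Real.exp B := by rw [sq, ← Real.exp_add, add_halves]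
  have t1 : |σ - σ'| ≤ Real.exp B * (2 * r ^ 2) :=
    (exp_lip h h').trans (mul_le_mul_of_nonneg_left ht b0.le)
  refine ⟨t1.trans ?_, ?_⟩
  · rw [mul_pow, ← mul_assoc]
    refine mul_le_mul_of_nonneg_right ?_ (sq_nonneg r)
    nlinarith [mul_nonneg b0.le D0, mul_nonneg b1.le (mul_nonneg b0.le D0)]
  have e : x - x' = Real.exp (σ / 2) • (Real.exp (-σ / 2) • x - Real.exp (-σ' / 2) • x') +
      (Real.exp ((σ - σ') / 2) - 1) • x' := by
    rw [smul_sub, smul_smul, smul_smul, ← Real.exp_add, ← Real.exp_add,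
      show σ / 2 + -σ / 2 = 0 by ring, show σ / 2 + -σ' / 2 = (σ - σ') / 2 by ring, Real.exp_zero,
      one_smul, sub_smul, one_smul]
    abel
  have u : |(σ - σ') / 2| ≤ Real.exp B * r ^ 2 := by rw [abs_div, abs_two]; linarith
  have e1 := (Real.abs_exp_sub_one_le (u.trans r2)).trans (mul_le_mul_of_nonneg_left u two_pos.le)
  have e2 : Real.exp (σ / 2) ≤ Real.exp (B / 2) := Real.exp_le_exp.2 (by linarith)
  rw [e]
  refine (norm_add_le _ _).trans_lt ?_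
  rw [norm_smul, norm_smul, Real.norm_of_nonneg (Real.exp_pos _).le, Real.norm_eq_abs]
  have e3 := mul_le_mul e1 hD (norm_nonneg _) (by positivity)
  have e4 := (mul_le_mul_of_nonneg_right e2 (norm_nonneg _)).trans_lt (mul_lt_mul_of_pos_left hx b1)
  have e5 : r ^ 2 ≤ r := by nlinarith
  nlinarith [mul_le_mul_of_nonneg_left e5 (mul_nonneg b0.le D0)]

end Bz

end Vale.Agent.P218M2
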