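import Vale.Agent.P218M1.Dp
import Vale.Agent.P218M2.Spec

/-!
# P218M2: the constants of the barrier argument
-/

open MeasureTheory Metric Filter Topology Set
open scoped ContDiff RealInnerProductSpace
open Vale.Agent.P218M1 Vale.Agent.P218M1.Dp Vale.Agent.P218M1.Sf

noncomputable section

namespace Vale.Agent.P218M2

theorem AA_le' {S : Sf} {π : Par} {Λ G : ℝ} (hS : S.Ok) (hΛ : S.AR Λ) (hπ : π.Rg)
    (hg : S.GBc G) : S.AA π ≤ 36 * |Λ| * π.R ^ 2 + |G| * (1 + |Λ| * (21 * (3 * π.R + 3)) ^ 4) +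
      2 * |G| * ∫ x in ball 0 (21 * (3 * π.R + 3)), S.φ x ^ 2 ∂S.μ := by
  have h0 : 0 < 3 * π.R + 3 := by linarith [hπ.R1]
  have h1 := hg _ h0
  have h2 := H_le hS hΛ (r := 21 * (3 * π.R + 3)) (by linarith)
  have h3 := IB_one_le_Λ hΛ hπ
  have h4 : 0 ≤ ∫ x in ball 0 (21 * (3 * π.R + 3)), S.H x ^ 2 ∂S.μ :=
    integral_nonneg fun _ => sq_nonneg _
  rw [AA_eq hS, abs_of_nonneg hΛ.nonneg]
  have h5 : S.IB π S.A2 ≤ |G| * (1 + ∫ x in ball 0 (21 * (3 * π.R + 3)), S.H x ^ 2 ∂S.μ) :=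
    h1.trans (mul_le_mul_of_nonneg_right (le_abs_self G) (by linarith))
  nlinarith [mul_le_mul_of_nonneg_left h2 (abs_nonneg G)]

theorem core (K : Kit) (hM : MAIN) (hD : DICH) (hL : LOW) (Λ G : ℝ) {κ m₀ R₀ : ℝ} (hκ : 0 < κ)
    (hm : 0 < m₀) (hR₀ : 0 < R₀) : ∃ R α l C' ε₀ k : ℝ, ∃ J : ℕ, 7 ≤ R ∧ 0 < α ∧ α ≤ 1 / 10 ∧
    0 < l ∧ 0 < C' ∧ 0 < ε₀ ∧ ε₀ ≤ 1 / 10 ∧ 0 < k ∧ ∀ π : Par, π.Rg → π.R = R → π.α = α →
      π.ε ≤ ε₀ → k ≤ π.mm ∧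
      (∀ (S : Sf) (v : E → ℝ), Good S π Λ → S.GBc G → S.Spd v → l * π.mm ≤ S.FF π →
        S.FF π ≤ 2 * (l * π.mm) → S.II (S.Hw π v) + S.II (S.Mm π) ≤
          C' * ∫ x in ball 0 (21 * (3 * R + 3)), S.φ x ^ 2 ∂S.μ) ∧
      ∀ S : Sf, Good S π Λ → ∫ x in ball 0 (21 * (3 * R + 3)), S.φ x ^ 2 ∂S.μ ≤ 1 →
        (∀ j ≤ J, Thick S κ m₀ R₀ (π.ε / 10 / 2 ^ j)) → 2 * (l * π.mm) ≤ S.FF π := by
  obtain ⟨c, αL, hc, hαL, hL⟩ := hL κ m₀ R₀ hκ hm hR₀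
  obtain ⟨l₀, hl₀, hD⟩ := hD Λ
  obtain ⟨C₀, hC₀, hM⟩ := hM
  obtain ⟨cm, Cm, hcm, hmm⟩ := K.con.mm
  obtain ⟨l, hl, hl1, hl2⟩ : ∃ l, 0 < l ∧ l ≤ l₀ ∧ 2 * l ≤ c :=
    ⟨min l₀ (c / 2), lt_min hl₀ (half_pos hc), min_le_left _ _, by linarith [min_le_right l₀ (c / 2)]⟩
  obtain ⟨c₁, hc₁, hD⟩ := hD l hl hl1
  obtain ⟨R, hR7, hR1, hRe⟩ := ex_R (R₀ + 1) (C₀ * |Λ|) (half_pos (mul_pos hc₁ hcm))
  obtain ⟨R', hR'⟩ : ∃ R', R' = 21 * (3 * R + 3) := ⟨_, rfl⟩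
  obtain ⟨B, hBe⟩ : ∃ B, B = 36 * |Λ| * R ^ 2 + |G| * (1 + |Λ| * R' ^ 4) := ⟨_, rfl⟩
  have hB0 : 0 ≤ B := by rw [hBe]; positivity
  obtain ⟨A₀, hA₀⟩ : ∃ A₀, A₀ = B + 2 * |G| * c₁ + 1 := ⟨_, rfl⟩
  have hA : 0 < A₀ := by rw [hA₀]; positivity
  obtain ⟨de, hde, hde1⟩ : ∃ de, 0 < de ∧ de * A₀ = c₁ * cm / 2 :=
    ⟨c₁ * cm / 2 / A₀, by positivity, by field_simp⟩
  obtain ⟨α₀, hα₀, hM⟩ := hM Λ R de hde
  obtain ⟨α, hα, hα1, hα2, hα3⟩ : ∃ α, 0 < α ∧ α ≤ α₀ ∧ α ≤ αL ∧ α ≤ 1 / 10 :=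
    ⟨min α₀ (min αL (1 / 10)), by positivity, min_le_left _ _,
      (min_le_right _ _).trans (min_le_left _ _), (min_le_right _ _).trans (min_le_right _ _)⟩
  obtain ⟨C, Ca, d, ε₁, hC, hCa, hd, hd1, hε₁, hM⟩ := hM α hα hα1
  obtain ⟨ε₂, hε₂, hD⟩ := hD α A₀ (Ca * A₀) d hd hd1
  obtain ⟨J, hL⟩ := hL Λ α (2 + |Λ| * R' ^ 4) hα2
  obtain ⟨C', hC'e⟩ : ∃ C', C' = cm * α ^ 2 / 2 + de * α ^ 2 * (B / c₁ + 2 * |G|) + C := ⟨_, rfl⟩
  have hC' : 0 < C' := by rw [hC'e]; positivity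
  have hCC : C ≤ C' := by
    have : 0 ≤ cm * α ^ 2 / 2 + de * α ^ 2 * (B / c₁ + 2 * |G|) := by positivity
    linarith
  refine ⟨R, α, l, C', min ε₁ (min ε₂ (1 / 10)), cm * α ^ 2, J, hR7, hα, hα3, hl, hC',
    by positivity, (min_le_right _ _).trans (min_le_right _ _), by positivity,
    fun π hrg eR eα hε0 => ?_⟩
  have hm1 : cm * α ^ 2 ≤ π.mm := eα ▸ (hmm π hrg).1
  have hm0 : 0 < π.mm := lt_of_lt_of_le (by positivity) hm1
  rw [← hR']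
  refine ⟨hm1, fun S v hg hgb hv h1 h2 => ?_, fun S hg hb hn => ?_⟩
  · obtain ⟨η', th, hcut, hAE, hmain⟩ := hM S π v hg eR eα (hε0.trans (min_le_left _ _)) hv
    have hAA : S.AA π ≤ B + 2 * |G| * ∫ x in ball 0 R', S.φ x ^ 2 ∂S.μ := by
      rw [hBe, hR', ← eR]; exact AA_le hg hgb
    have hPP : S.PP π ≤ ∫ x in ball 0 R', S.φ x ^ 2 ∂S.μ :=
      int_mono hg.ok hg.ok.cg_φ (by rw [eR]; linarith)
    have he : C₀ * Λ * α ^ 2 * Real.exp (-R ^ 2 / 4) ≤ c₁ * cm / 2 * α ^ 2 := by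
      rw [abs_of_nonneg hg.ar.nonneg] at hRe
      exact ar3 hRe
    have h6 : 0 ≤ ∫ x in ball 0 R', S.φ x ^ 2 ∂S.μ := integral_nonneg fun _ => sq_nonneg _
    generalize ∫ x in ball 0 R', S.φ x ^ 2 ∂S.μ = P at hAA hPP h6
    have h7 : C * S.PP π ≤ C * P := mul_le_mul_of_nonneg_left hPP hC.le
    rcases le_total P c₁ with h8 | h8
    · have h9 : S.AA π ≤ A₀ := by
        linarith only [mul_le_mul_of_nonneg_left h8 (abs_nonneg G), hAA, hA₀]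
      have h10 := hD S π η' th hg (eR ▸ hR7) eα
        (hε0.trans ((min_le_right _ _).trans (min_le_left _ _))) hcut
        (hAE.trans (by
          have : 0 ≤ Ca * π.ε ^ 2 := by positivity
          linarith only [mul_le_mul_of_nonneg_left h9 this])) h9 (hPP.trans h8) h1
        (by linarith only [h2])
      exact ar1 hmain he hde hde1 h9 h10 hm1 hc₁ h7 hCC h6
    · rw [hC'e]
      exact ar2 hmain he hde (S1_nonneg hg.ok hrg hcut.sη hcut.sth)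
        (S2_nonneg hg.ok hrg hcut.sη hcut.sth) hAA hB0 hc₁ hcm h7 h8
  · have h1 := H_le hg.ok hg.ar (r := R') (by linarith)
    have h2 := int_mono hg.ok hg.ok.cg_H (r := R₀ + 3) (r' := R') (by linarith)
    have h3 := hL S π hg eα (eR ▸ hR1) (by
      rw [abs_of_nonneg hg.ar.nonneg]; linarith only [h1, h2, hb]) hn
    linarith only [h3, mul_le_mul_of_nonneg_right hl2 hm0.le]

namespace Cv

variable {C : Cv}

theorem U_open (C : Cv) (ρ τ : ℝ) : IsOpen (C.U ρ τ) := by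
  refine (isOpen_lt continuous_norm continuous_const).inter ?_
  change IsOpen {x : E | ∀ i, |τ - C.t i| ≤ C.r i ^ 2 → C.r i < ‖x - C.c i‖}
  rw [ofPred_forall]
  refine isOpen_iInter_of_finite fun i => ?_
  by_cases h : |τ - C.t i| ≤ C.r i ^ 2
  · simpa [h] using isOpen_lt continuous_const (by fun_prop)
  · simp [h]

theorem act_nn (C : Cv) (σ : ℝ) : 0 ≤ C.act σ :=
  Finset.sum_nonneg fun i _ => by split_ifs <;> norm_num

theorem one_le_act {σ : ℝ} {i : Fin C.n} (h : |σ - C.t i| ≤ 3 * C.r i ^ 2) : 1 ≤ C.act σ := by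
  refine le_trans ?_ (Finset.single_le_sum (f := fun i => if |σ - C.t i| ≤ 3 * C.r i ^ 2 then
    (1 : ℝ) else 0) (fun i _ => by split_ifs <;> norm_num) (Finset.mem_univ i))
  rw [if_pos h]

theorem act_eq (C : Cv) : C.act = fun σ => ∑ i,
    (Icc (C.t i - 3 * C.r i ^ 2) (C.t i + 3 * C.r i ^ 2)).indicator (fun _ => (1 : ℝ)) σ := by
  funext σ
  refine Finset.sum_congr rfl fun i _ => ?_
  rw [indicator_apply]
  refine if_congr ?_ rfl rfl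
  rw [abs_le, mem_Icc]
  constructor <;> rintro ⟨a, b⟩ <;> constructor <;> linarith

theorem act_int (C : Cv) : Integrable C.act ∧ ∫ σ, C.act σ = 6 * ∑ i, C.r i ^ 2 := by
  have h : ∀ i, Integrable ((Icc (C.t i - 3 * C.r i ^ 2) (C.t i + 3 * C.r i ^ 2)).indicator
      fun _ => (1 : ℝ)) := fun i =>
    (integrable_indicator_iff measurableSet_Icc).2 (integrableOn_const (by simp))
  rw [act_eq]
  refine ⟨integrable_finsetSum _ fun i _ => h i, ?_⟩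
  rw [integral_finsetSum _ fun i _ => h i, Finset.mul_sum]
  refine Finset.sum_congr rfl fun i _ => ?_
  rw [integral_indicator_const _ measurableSet_Icc, Real.volume_real_Icc_of_le
    (by linarith [sq_nonneg (C.r i)]), smul_eq_mul]
  ring

end Cv

theorem Ag.symm {S T : Sf} {U : Set E} (h : Ag S T U) : Ag T S U :=
  ⟨fun x hx => (h.z x hx).symm, h.m.symm⟩

theorem Ag.mono {S T : Sf} {U V : Set E} (h : Ag S T U) (hU : V ⊆ U) : Ag S T V :=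
  ⟨fun x hx => h.z x (hU hx), by
    rw [← Measure.restrict_restrict_of_subset (μ := S.μ) hU, h.m,
      Measure.restrict_restrict_of_subset hU]⟩

theorem Ag.trans {S T W : Sf} {U : Set E} (h : Ag S T U) (h' : Ag T W U) : Ag S W U :=
  ⟨fun x hx => (h.z x hx).trans (h'.z x hx), h.m.trans h'.m⟩

theorem Zt.seg {K : ℝ} {C : Cv} {ζ : ℝ × Q → ℝ} {o : Fin C.n → Q → ℝ} (h : Zt K C ζ o)
    (hr : ∀ i, 0 < C.r i) {σ τ R ρ : ℝ} (hs : ∀ i, |σ - τ| ≤ C.r i ^ 2) (hρ : 3 * R + 3 ≤ ρ)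
    (z : Q) (h1 : ‖z.2.1‖ = 1) (h2 : ‖z.1‖ ≤ 3 * R) (h4 : z.2.2 ≤ 2) (h5 : ζ (σ, z) ^ 2 ≠ 0) :
    Seg z (C.U ρ τ) := fun l hl => by
  refine ⟨?_, fun i hi => ?_⟩
  · have := norm_add_le z.1 (l • z.2.1)
    rw [norm_smul, h1, Real.norm_of_nonneg hl.1] at this
    linarith [hl.2]
  · have := h.kill σ z h1 (fun e => h5 (by simp [e])) i
      (by linarith [abs_sub_le σ τ (C.t i), hs i]) l hl
    linarith [hr i]

theorem ex_trunc {h : ℝ → ℝ} {s : Set ℝ} (hh : IntegrableOn h s) {e : ℝ} (he : 0 < e) :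
    ∃ N : ℝ, 0 ≤ N ∧ ∫ τ in s, max (h τ - N) 0 ≤ e := by
  have := tendsto_integral_of_dominated_convergence (μ := volume.restrict s)
    (F := fun (n : ℕ) τ => max (h τ - n) 0) (f := fun _ => 0) (fun τ => ‖h τ‖)
    (fun n => ((hh.1.sub aestronglyMeasurable_const).sup aestronglyMeasurable_const)) hh.norm
    (fun n => .of_forall fun τ => by
      rw [Real.norm_of_nonneg (le_max_right _ _), Real.norm_eq_abs]
      exact max_le (by linarith [le_abs_self (h τ), n.cast_nonneg (α := ℝ)]) (abs_nonneg _))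
    (.of_forall fun τ => tendsto_const_nhds.congr' (by
      filter_upwards [tendsto_natCast_atTop_atTop.eventually_ge_atTop (h τ)] with n hn
      exact (max_eq_right (by linarith)).symm))
  rw [integral_zero] at this
  obtain ⟨n, hn⟩ := (this.eventually (ge_mem_nhds he)).exists
  exact ⟨n, n.cast_nonneg, hn⟩

end Vale.Agent.P218M2
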